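import Vale.Agent.P011.E6O.Defs

/-!
The outer group of type `E₆` with nontrivial Tits class as a group of permutations.
-/

open NumberField

namespace Vale.Agent.P011.E6O

open Vale.Agent.P011.D4 Vale.Agent.P011.D4.Oct Vale.Agent.P011.E6

variable {k E : Type} [Field k] [Field E] [Algebra k E]

/-- The map `φ` is linear over `E`, preserves the cubic norm and the hermitian form and commutes
with `ph`. -/
def IsE6O (ρ σ : E ≃ₐ[k] E) (lam : Eˣ) (g : Fin 3 → Eˣ) {a b c : kˣ}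
    (φ : AlbL E a b c → AlbL E a b c) : Prop :=
  (∀ x y, φ (x + y) = φ x + φ y) ∧ (∀ (t : E) x, φ (t • x) = t • φ x) ∧
    (∀ x, Alb.cub (φ x) = Alb.cub x) ∧ (∀ x, φ (ph ρ lam x) = ph ρ lam (φ x)) ∧
    ∀ x y, her σ g (φ x) (φ y) = her σ g x y

/-- The group of rational points of the outer group of type `E₆` of the cyclic algebra
`(E/K, ρ, lam)` with its involution, of the octonion algebra `(a, b, c)` and of the weights `g`. -/
def GPO (ρ σ : E ≃ₐ[k] E) (lam : Eˣ) (g : Fin 3 → Eˣ) (a b c : kˣ) :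
    Subgroup (Equiv.Perm (AlbL E a b c)) where
  carrier := {φ | IsE6O ρ σ lam g φ}
  mul_mem' := by
    rintro φ ψ ⟨f1, f2, f3, f4, f5⟩ ⟨h1, h2, h3, h4, h5⟩
    refine ⟨fun x y => ?_, fun t x => ?_, fun x => ?_, fun x => ?_, fun x y => ?_⟩
    · rw [Equiv.Perm.mul_apply, h1, f1]; rfl
    · rw [Equiv.Perm.mul_apply, h2, f2]; rfl
    · rw [Equiv.Perm.mul_apply, f3, h3]
    · rw [Equiv.Perm.mul_apply, Equiv.Perm.mul_apply, h4, f4]
    · rw [Equiv.Perm.mul_apply, Equiv.Perm.mul_apply, f5, h5]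
  one_mem' := ⟨fun _ _ => rfl, fun _ _ => rfl, fun _ => rfl, fun _ => rfl, fun _ _ => rfl⟩
  inv_mem' := by
    rintro φ ⟨f1, f2, f3, f4, f5⟩
    have e : ∀ x, φ (φ⁻¹ x) = x := fun x => φ.apply_symm_apply x
    refine ⟨fun x y => ?_, fun t x => ?_, fun x => ?_, fun x => ?_, fun x y => ?_⟩
    · apply φ.injective
      rw [f1, e, e, e]
    · apply φ.injective
      rw [f2, e, e]
    · rw [← f3, e]
    · apply φ.injective
      rw [f4, e, e]
    · rw [← f5, e, e]

end Vale.Agent.P011.E6O
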