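import Vale.Agent.P011.E6O.HDefs

/-!
The groups of linear maps and of permutations agree.
-/

open NumberField

namespace Vale.Agent.P011.E6O

open Vale.Agent.P011.D4 Vale.Agent.P011.D4.Oct Vale.Agent.P011.E6

variable {k E : Type} [Field k] [Field E] [Algebra k E] {ρ σ : E ≃ₐ[k] E} {lam : Eˣ}
  {g : Fin 3 → Eˣ} {a b c : kˣ}

/-- The two descriptions of the group agree. -/
def toGPO : GO ρ σ lam g a b c →* GPO ρ σ lam g a b c where
  toFun φ := ⟨φ.1.toEquiv, fun x y => map_add φ.1 x y, fun t x => map_smul φ.1 t x, φ.2.1,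
    φ.2.2.1, φ.2.2.2⟩
  map_one' := rfl
  map_mul' _ _ := rfl

theorem toGPO_surjective : Function.Surjective (toGPO (ρ := ρ) (σ := σ) (lam := lam) (g := g)
    (a := a) (b := b) (c := c)) := by
  rintro ⟨φ, f1, f2, f3, f4, f5⟩
  refine ⟨⟨{ φ with
    map_add' := f1
    map_smul' := f2 }, fun x => f3 x, fun x => f4 x, fun x y => f5 x y⟩, ?_⟩
  apply Subtype.ext
  apply Equiv.ext
  intro x
  rfl

/-- The statement for the permutations from the statement for the linear maps. -/
theorem gpo_of (h : ∀ N : Subgroup (GO ρ σ lam g a b c), N.index ≠ 0 → N = ⊤)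
    (N : Subgroup (GPO ρ σ lam g a b c)) (hN : N.index ≠ 0) : N = ⊤ := by
  have h1 : N.comap (toGPO (ρ := ρ) (σ := σ) (lam := lam) (g := g) (a := a) (b := b)
      (c := c)) = ⊤ := by
    apply h
    rw [Subgroup.index_comap_of_surjective _ toGPO_surjective]
    exact hN
  rw [eq_top_iff]
  intro φ _
  obtain ⟨ψ, rfl⟩ := toGPO_surjective φ
  have h3 : ψ ∈ N.comap toGPO := by rw [h1]; exact Subgroup.mem_top ψ
  exact h3

/-- The statement on normal subgroups for the permutations from the statement for the linear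
maps. -/
theorem gpo_normal_of (h : ∀ N : Subgroup (GO ρ σ lam g a b c), N.Normal →
    N ≤ Subgroup.center (GO ρ σ lam g a b c) ∨ N = ⊤)
    (N : Subgroup (GPO ρ σ lam g a b c)) (hN : N.Normal) :
    N ≤ Subgroup.center (GPO ρ σ lam g a b c) ∨ N = ⊤ := by
  rcases h (N.comap (toGPO (ρ := ρ) (σ := σ) (lam := lam) (g := g) (a := a) (b := b) (c := c)))
    (hN.comap _) with h | h
  · left
    intro φ hφ
    obtain ⟨ψ, rfl⟩ := toGPO_surjective φ
    rw [Subgroup.mem_center_iff]
    intro χ
    obtain ⟨ψ', rfl⟩ := toGPO_surjective χ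
    have h1 := Subgroup.mem_center_iff.mp (h (Subgroup.mem_comap.mpr hφ)) ψ'
    rw [← map_mul, h1, map_mul]
  · right
    rw [eq_top_iff]
    intro φ _
    obtain ⟨ψ, rfl⟩ := toGPO_surjective φ
    have h3 : ψ ∈ N.comap toGPO := by rw [h]; exact Subgroup.mem_top ψ
    exact h3

end Vale.Agent.P011.E6O
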