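import Vale.Agent.P011.E6I.Gal

/-!
Cyclic algebras of degree three with a unitary involution, as division rings with involution.
-/

open Matrix

set_option linter.unusedSimpArgs false

namespace Vale.Agent.P011.E6O

open Vale.Agent.P011.D4 Vale.Agent.P011.E6I

section cyc

variable {K E : Type} [Field K] [Field E] [Algebra K E]

/-- The elements of the cyclic algebra with given first column. -/
def col (ρ : E ≃ₐ[K] E) (lam : Kˣ) (e : Fin 3 → E) : Matrix (Fin 3) (Fin 3) E :=
  !![e 0, ((up E lam)⁻¹ : Eˣ) * ρ (e 2), ((up E lam)⁻¹ : Eˣ) * ρ (ρ (e 1));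
     e 1, ρ (e 0), ((up E lam)⁻¹ : Eˣ) * ρ (ρ (e 2));
     e 2, ρ (e 1), ρ (ρ (e 0))]

variable {ρ : E ≃ₐ[K] E} {lam : Kˣ}

theorem rho_inv : ρ (((up E lam)⁻¹ : Eˣ) : E) = (((up E lam)⁻¹ : Eˣ) : E) := by
  rw [Units.val_inv_eq_inv_val, map_inv₀]
  congr 1
  exact ρ.commutes _

theorem col_mem (hρ3 : ∀ x, ρ (ρ (ρ x)) = x) (e : Fin 3 → E) : InD0 ρ lam (col ρ lam e) := by
  have h1 := rho_inv (ρ := ρ) (lam := lam)
  rw [InD0]
  ext i j
  fin_cases i <;> fin_cases j <;>
    simp [col, u0, Matrix.mul_apply, Fin.sum_univ_three, hρ3, mul_comm]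

theorem entries {m : Matrix (Fin 3) (Fin 3) E} (hm : InD0 ρ lam m) :
    m 0 1 = ((up E lam)⁻¹ : Eˣ) * ρ (m 2 0) ∧ m 1 1 = ρ (m 0 0) ∧ m 2 1 = ρ (m 1 0) ∧
      m 0 2 = ((up E lam)⁻¹ : Eˣ) * ρ (m 2 1) ∧ m 1 2 = ρ (m 0 1) ∧ m 2 2 = ρ (m 1 1) ∧
      m 0 0 = ρ (m 2 2) ∧ m 1 0 * ((up E lam)⁻¹ : Eˣ) = ρ (m 0 2) ∧
      m 2 0 * ((up E lam)⁻¹ : Eˣ) = ρ (m 1 2) := by
  have h1 : ∀ i j, (m * u0 E lam) i j = (u0 E lam * m.map ρ) i j := fun i j => by rw [hm]
  have h00 := h1 0 0
  have h10 := h1 1 0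
  have h20 := h1 2 0
  have h01 := h1 0 1
  have h11 := h1 1 1
  have h21 := h1 2 1
  have h02 := h1 0 2
  have h12 := h1 1 2
  have h22 := h1 2 2
  simp only [u0, Matrix.mul_apply, Fin.sum_univ_three, Matrix.of_apply, Matrix.cons_val',
    Matrix.cons_val_zero, Matrix.cons_val_one, Matrix.cons_val, Matrix.map_apply, mul_zero,
    zero_mul, mul_one, one_mul, add_zero, zero_add] at h00 h10 h20 h01 h11 h21 h02 h12 h22
  refine ⟨h00, h10, h20, h01, h11, h21, ?_, h12, h22⟩
  rw [mul_comm] at h02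
  exact mul_left_cancel₀ (Units.ne_zero _) h02

theorem eq_col {m : Matrix (Fin 3) (Fin 3) E} (hm : InD0 ρ lam m) :
    m = col ρ lam fun i => m i 0 := by
  obtain ⟨h00, h10, h20, h01, h11, h21, -⟩ := entries hm
  have h2 := rho_inv (ρ := ρ) (lam := lam)
  rw [h20] at h01
  rw [h00, map_mul, h2] at h11
  rw [h10] at h21
  ext i j
  fin_cases i <;> fin_cases j
  · rfl
  · exact h00
  · exact h01
  · rfl
  · exact h10
  · exact h11
  · rfl
  · exact h20
  · exact h21

/-- The cyclic algebra. -/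
def Ds (ρ : E ≃ₐ[K] E) (lam : Kˣ) : Subalgebra K (Matrix (Fin 3) (Fin 3) E) where
  carrier := {z | InD0 ρ lam z}
  mul_mem' := by
    intro x y hx hy
    change _ = _ at hx hy ⊢
    have e : (x * y).map ρ = x.map ρ * y.map ρ := Matrix.map_mul (f := (ρ : E →+* E))
    rw [Matrix.mul_assoc, hy, ← Matrix.mul_assoc, hx, Matrix.mul_assoc, e]
  add_mem' := by
    intro x y hx hy
    change _ = _ at hx hy ⊢
    have e : (x + y).map ρ = x.map ρ + y.map ρ := Matrix.map_add _ (map_add ρ) _ _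
    rw [Matrix.add_mul, hx, hy, e, Matrix.mul_add]
  algebraMap_mem' := by
    intro r
    change _ = _
    have e : (algebraMap K (Matrix (Fin 3) (Fin 3) E) r).map ρ =
        algebraMap K (Matrix (Fin 3) (Fin 3) E) r := by
      ext i j
      rw [Matrix.map_apply, Matrix.algebraMap_matrix_apply]
      split
      · exact ρ.commutes r
      · exact map_zero ρ
    rw [e]
    exact (Algebra.commutes r _).symm.symm

theorem mem_Ds {z : Matrix (Fin 3) (Fin 3) E} : z ∈ Ds ρ lam ↔ InD0 ρ lam z := Iff.rfl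

/-- The elements of the cyclic algebra are determined by the first column. -/
def colEquiv (hρ3 : ∀ x, ρ (ρ (ρ x)) = x) : Ds ρ lam ≃ₗ[K] (Fin 3 → E) where
  toFun z := fun i => z.1 i 0
  invFun e := ⟨col ρ lam e, col_mem hρ3 e⟩
  map_add' x y := rfl
  map_smul' t x := rfl
  left_inv z := Subtype.ext (eq_col z.2).symm
  right_inv e := by
    funext i
    fin_cases i <;> rfl

theorem finrank_Ds (h3 : Module.finrank K E = 3) (hρ3 : ∀ x, ρ (ρ (ρ x)) = x) :
    Module.finrank K (Ds ρ lam) = 3 ^ 2 := by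
  have : FiniteDimensional K E := Module.finite_of_finrank_pos (by omega)
  rw [(colEquiv (lam := lam) hρ3).finrank_eq, Module.finrank_pi_fintype]
  simp [h3]

/-- A nonzero element with adjugate zero gives a norm. -/
theorem ne_norm (hρ3 : ∀ x, ρ (ρ (ρ x)) = x)
    (hN : ∀ x : E, x * ρ x * ρ (ρ x) ≠ algebraMap K E lam)
    {y : Matrix (Fin 3) (Fin 3) E} (hy : InD0 ρ lam y) (ha : y.adjugate = 0) : y = 0 := by
  obtain ⟨h01, h11, h21, h02, h12, h22, h00, h10, h20⟩ := entries hy
  have hl0 : algebraMap K E (lam : K) ≠ 0 := by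
    rw [map_ne_zero]; exact lam.ne_zero
  have hl : (((up E lam)⁻¹ : Eˣ) : E) = (algebraMap K E (lam : K))⁻¹ := by
    rw [Units.val_inv_eq_inv_val]; rfl
  -- the minors
  have hm := fun i j => congrFun (congrFun ha i) j
  have e22 := hm 2 2
  have e12 := hm 2 1
  have e02 := hm 2 0
  rw [Matrix.adjugate_fin_three] at e22 e12 e02
  simp only [Matrix.of_apply, Matrix.cons_val', Matrix.cons_val_zero, Matrix.cons_val_one,
    Matrix.cons_val, Matrix.zero_apply] at e22 e12 e02
  -- it is enough that the first column is zero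
  by_contra hne
  obtain ⟨i, hi⟩ : ∃ i, y i 0 ≠ 0 := by
    by_contra hcon
    push Not at hcon
    apply hne
    rw [eq_col hy]
    ext i j
    fin_cases i <;> fin_cases j <;> simp [col, hcon]
  -- the second column is proportional to the first
  obtain ⟨t, ht⟩ : ∃ t, ∀ j, y j 1 = t * y j 0 := by
    refine ⟨y i 1 / y i 0, fun j => ?_⟩
    rw [div_mul_eq_mul_div, eq_div_iff hi]
    fin_cases i <;> fin_cases j <;> simp only [Fin.zero_eta, Fin.mk_one, Fin.reduceFinMk] <;>
      first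
        | rfl
        | linear_combination e22
        | linear_combination -e22
        | linear_combination e12
        | linear_combination -e12
        | linear_combination e02
        | linear_combination -e02
  have t0 := ht 0
  have t1 := ht 1
  have t2 := ht 2
  rw [h01, hl] at t0
  rw [h11] at t1
  rw [h21] at t2
  -- `t0 : λ⁻¹ ρ(v₂) = t v₀`, `t1 : ρ(v₀) = t v₁`, `t2 : ρ(v₁) = t v₂`
  have t0' : ρ (y 2 0) = algebraMap K E lam * (t * y 0 0) := by
    rw [← t0, ← mul_assoc, mul_inv_cancel₀ hl0, one_mul]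
  have hv0 : y 0 0 ≠ 0 := by
    intro h
    have ht0 : t = 0 ∨ y 1 0 = 0 := by
      rw [h, map_zero] at t1
      exact mul_eq_zero.mp t1.symm
    have h2 : y 2 0 = 0 := by
      rw [h, mul_zero, mul_zero] at t0'
      exact (map_eq_zero ρ).mp t0'
    have h1 : y 1 0 = 0 := by
      rcases ht0 with ht0 | h1
      · rw [h2, mul_zero] at t2
        exact (map_eq_zero ρ).mp t2
      · exact h1
    fin_cases i
    · exact hi h
    · exact hi h1
    · exact hi h2
  have e1 : ρ (ρ (ρ (y 0 0))) = ρ (ρ t) * (ρ t * (algebraMap K E lam * (t * y 0 0))) := by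
    rw [t1, map_mul, map_mul, t2, map_mul, t0']
  rw [hρ3] at e1
  have e2 : (t * ρ t * ρ (ρ t)) * algebraMap K E lam = 1 := by
    have : y 0 0 * ((t * ρ t * ρ (ρ t)) * algebraMap K E lam - 1) = 0 := by
      linear_combination -e1
    rcases mul_eq_zero.mp this with h | h
    · exact absurd h hv0
    · exact sub_eq_zero.mp h
  apply hN t⁻¹
  rw [map_inv₀, map_inv₀]
  have ht0 : t * ρ t * ρ (ρ t) ≠ 0 := left_ne_zero_of_mul_eq_one e2
  rw [← mul_inv, ← mul_inv]
  exact inv_eq_of_mul_eq_one_right e2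

theorem adjugate_mem {z : Matrix (Fin 3) (Fin 3) E} (hz : InD0 ρ lam z) :
    InD0 ρ lam z.adjugate := by
  change _ = _ at hz ⊢
  have h1 := congrArg Matrix.adjugate hz
  rw [Matrix.adjugate_mul_distrib, Matrix.adjugate_mul_distrib] at h1
  have hmap : (z.map ρ).adjugate = z.adjugate.map ρ :=
    ((ρ : E →+* E).map_adjugate z).symm
  rw [hmap] at h1
  -- `adj u adj z = ρ (adj z) adj u`
  have hdet : (u0 E lam).det = (((up E lam)⁻¹ : Eˣ) : E) := by
    rw [Matrix.det_fin_three]
    simp [u0]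
  have h2 := Matrix.mul_adjugate (u0 E lam)
  have h3 := Matrix.adjugate_mul (u0 E lam)
  have hd0 : (u0 E lam).det ≠ 0 := by rw [hdet]; exact Units.ne_zero _
  have h4 : (u0 E lam).det • (z.adjugate * u0 E lam) =
      (u0 E lam).det • (u0 E lam * z.adjugate.map ρ) := by
    calc (u0 E lam).det • (z.adjugate * u0 E lam) =
        ((u0 E lam) * (u0 E lam).adjugate) * z.adjugate * u0 E lam := by
          rw [h2, Matrix.smul_mul, Matrix.smul_mul, Matrix.one_mul]
      _ = u0 E lam * (z.adjugate.map ρ * (u0 E lam).adjugate) * u0 E lam := by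
          rw [Matrix.mul_assoc (u0 E lam), h1]
      _ = u0 E lam * z.adjugate.map ρ * ((u0 E lam).adjugate * u0 E lam) := by
          simp only [Matrix.mul_assoc]
      _ = (u0 E lam).det • (u0 E lam * z.adjugate.map ρ) := by
          rw [h3, Matrix.mul_smul, Matrix.mul_one]
  have h5 := congrArg (fun m => ((u0 E lam).det)⁻¹ • m) h4
  simpa only [smul_smul, inv_mul_cancel₀ hd0, one_smul] using h5

/-- The cyclic algebra is a division algebra. -/
theorem det_ne (hρ3 : ∀ x, ρ (ρ (ρ x)) = x)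
    (hN : ∀ x : E, x * ρ x * ρ (ρ x) ≠ algebraMap K E lam)
    {z : Matrix (Fin 3) (Fin 3) E} (hz : InD0 ρ lam z) (h0 : z ≠ 0) : z.det ≠ 0 := by
  intro hd
  apply h0
  apply ne_norm hρ3 hN hz
  apply ne_norm hρ3 hN (adjugate_mem hz)
  rw [Matrix.adjugate_adjugate _ (by simp), hd]
  simp

theorem inv_mem {z : Matrix (Fin 3) (Fin 3) E} (hz : InD0 ρ lam z) (hd : z.det ≠ 0) :
    InD0 ρ lam z⁻¹ := by
  have hu : IsUnit z.det := isUnit_iff_ne_zero.mpr hd
  change _ = _ at hz ⊢
  have h1 : z.map ρ * (z⁻¹).map ρ = 1 := by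
    have e : (z * z⁻¹).map ρ = z.map ρ * (z⁻¹).map ρ := Matrix.map_mul (f := (ρ : E →+* E))
    rw [← e, Matrix.mul_nonsing_inv _ hu]
    exact Matrix.map_one _ (map_zero ρ) (map_one ρ)
  have h2 : z * (z⁻¹ * u0 E lam) = z * (u0 E lam * (z⁻¹).map ρ) := by
    rw [← Matrix.mul_assoc, Matrix.mul_nonsing_inv _ hu, Matrix.one_mul, ← Matrix.mul_assoc, hz,
      Matrix.mul_assoc, h1, Matrix.mul_one]
  have h3 := congrArg (fun m => z⁻¹ * m) h2
  simpa only [← Matrix.mul_assoc, Matrix.nonsing_inv_mul _ hu, Matrix.one_mul] using h3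

end cyc

/-- The data of a cyclic algebra of degree three with a unitary involution: `s` is the extension
of the involution of `K` to the maximal subfield `E`, and the involution of the algebra is
`z ↦ Γ⁻¹ s(z)ᵀ Γ`, where `Γ` is the diagonal matrix `G`. -/
structure Dat (K E : Type) [Field K] [StarRing K] [Field E] [Algebra K E] where
  /-- the generator of the Galois group -/
  ρ : E ≃ₐ[K] E
  /-- the involution of the maximal subfield -/
  s : E ≃+* E
  /-- the constant of the cyclic algebra -/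
  lam : Kˣ
  /-- the entries of `Γ` -/
  G : Fin 3 → Eˣ
  /-- the constant -/
  c : E
  h3 : Module.finrank K E = 3
  ρ1 : ∃ x, ρ x ≠ x
  ρ3 : ∀ x, ρ (ρ (ρ x)) = x
  fix : ∀ x, ρ x = x → ∃ t : K, algebraMap K E t = x
  hN : ∀ x : E, x * ρ x * ρ (ρ x) ≠ algebraMap K E lam
  ss : ∀ x, s (s x) = x
  sρ : ∀ x, s (ρ x) = ρ (s x)
  sK : ∀ x : K, s (algebraMap K E x) = algebraMap K E (star x)
  sG : ∀ i, s (G i) = G i
  G1 : (G 1 : E) = c * ρ (G 0)
  G2 : (G 2 : E) = c * ρ (G 1)
  G0 : (G 0 : E) = algebraMap K E (lam * star (lam : K)) * (c * ρ (G 2))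

namespace Dat

variable {K E : Type} [Field K] [StarRing K] [Field E] [Algebra K E] (S : Dat K E)

theorem c_ne : S.c ≠ 0 := by
  intro h
  have := S.G1
  rw [h, zero_mul] at this
  exact (S.G 1).ne_zero this

/-- The cyclic algebra. -/
def D : Type := Ds S.ρ S.lam

noncomputable instance : Ring S.D := inferInstanceAs (Ring (Ds S.ρ S.lam))
noncomputable instance : Algebra K S.D := inferInstanceAs (Algebra K (Ds S.ρ S.lam))

/-- The inclusion of the cyclic algebra in the algebra of matrices. -/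
def f : S.D →ₐ[K] Matrix (Fin 3) (Fin 3) E := (Ds S.ρ S.lam).val

theorem f_injective : Function.Injective S.f := Subtype.val_injective

theorem f_mem (z : S.D) : InD0 S.ρ S.lam (S.f z) := z.2

/-- The element of the cyclic algebra with the given matrix. -/
def el {z : Matrix (Fin 3) (Fin 3) E} (hz : InD0 S.ρ S.lam z) : S.D := ⟨z, hz⟩

@[simp] theorem f_el {z : Matrix (Fin 3) (Fin 3) E} (hz : InD0 S.ρ S.lam z) : S.f (S.el hz) = z :=
  rfl

theorem range_f (z : Matrix (Fin 3) (Fin 3) E) : InD0 S.ρ S.lam z ↔ ∃ x : S.D, S.f x = z :=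
  ⟨fun h => ⟨S.el h, rfl⟩, by rintro ⟨x, rfl⟩; exact x.2⟩

theorem finrank_D : Module.finrank K S.D = 3 ^ 2 := finrank_Ds S.h3 S.ρ3

instance : FiniteDimensional K S.D :=
  Module.finite_of_finrank_pos (by rw [S.finrank_D]; norm_num)

theorem det_ne {z : S.D} (h0 : z ≠ 0) : (S.f z).det ≠ 0 :=
  E6O.det_ne S.ρ3 S.hN z.2 fun h => h0 (Subtype.ext h)

theorem isUnit_or (z : S.D) : IsUnit z ∨ z = 0 := by
  by_cases h : z = 0
  · exact Or.inr h
  · left
    have hd := S.det_ne h
    have hu : IsUnit (S.f z).det := isUnit_iff_ne_zero.mpr hd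
    refine ⟨⟨z, S.el (inv_mem z.2 hd), ?_, ?_⟩, rfl⟩
    · apply S.f_injective
      exact Matrix.mul_nonsing_inv _ hu
    · apply S.f_injective
      exact Matrix.nonsing_inv_mul _ hu

instance : Nontrivial S.D := ⟨0, 1, fun h => zero_ne_one (α := Matrix (Fin 3) (Fin 3) E)
  (congrArg S.f h)⟩

noncomputable instance : DivisionRing S.D := DivisionRing.ofIsUnitOrEqZero S.isUnit_or

/-- The unitary involution, on matrices. -/
def dag (z : Matrix (Fin 3) (Fin 3) E) : Matrix (Fin 3) (Fin 3) E :=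
  Matrix.of fun i j => ((S.G i)⁻¹ : Eˣ) * S.s (z j i) * S.G j

theorem dag_apply (z : Matrix (Fin 3) (Fin 3) E) (i j : Fin 3) :
    S.dag z i j = ((S.G i)⁻¹ : Eˣ) * S.s (z j i) * S.G j := rfl

theorem dag_mem {z : Matrix (Fin 3) (Fin 3) E} (hz : InD0 S.ρ S.lam z) :
    InD0 S.ρ S.lam (S.dag z) := by
  obtain ⟨h01, h11, h21, h02, h12, h22, h00, h10, h20⟩ := entries hz
  have hc := S.c_ne
  have hl0 : algebraMap K E (S.lam : K) ≠ 0 := by
    rw [map_ne_zero]; exact S.lam.ne_zero
  have hl0' : algebraMap K E (star (S.lam : K)) ≠ 0 := by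
    rw [map_ne_zero, Ne, star_eq_zero]; exact S.lam.ne_zero
  have hl : (((up E S.lam)⁻¹ : Eˣ) : E) = (algebraMap K E (S.lam : K))⁻¹ := by
    rw [Units.val_inv_eq_inv_val]; rfl
  have g0 := (S.G 0).ne_zero
  have g1 := (S.G 1).ne_zero
  have g2 := (S.G 2).ne_zero
  have r0 : S.ρ (S.G 0) = S.G 1 / S.c := by
    rw [eq_div_iff hc, mul_comm]; exact S.G1.symm
  have r1 : S.ρ (S.G 1) = S.G 2 / S.c := by
    rw [eq_div_iff hc, mul_comm]; exact S.G2.symm
  have r2 : S.ρ (S.G 2) = S.G 0 /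
      (algebraMap K E (S.lam : K) * algebraMap K E (star (S.lam : K)) * S.c) := by
    rw [eq_div_iff (mul_ne_zero (mul_ne_zero hl0 hl0') hc)]
    have := S.G0
    rw [map_mul] at this
    linear_combination -this
  rw [hl] at h01 h02 h10 h20
  have k01 := congrArg S.s h01
  have k11 := congrArg S.s h11
  have k21 := congrArg S.s h21
  have k02 := congrArg S.s h02
  have k12 := congrArg S.s h12
  have k22 := congrArg S.s h22
  have k00 := congrArg S.s h00
  have k10 := congrArg S.s h10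
  have k20 := congrArg S.s h20
  rw [map_mul, map_inv₀, S.sK, S.sρ] at k01 k02
  rw [map_mul, map_inv₀, S.sK, S.sρ] at k10 k20
  rw [S.sρ] at k11 k21 k12 k22 k00
  have j10 : S.s (z 1 0) = algebraMap K E (star (S.lam : K)) * S.ρ (S.s (z 0 2)) := by
    rw [← k10, mul_comm (S.s (z 1 0)), mul_inv_cancel_left₀ hl0']
  have j20 : S.s (z 2 0) = algebraMap K E (star (S.lam : K)) * S.ρ (S.s (z 1 2)) := by
    rw [← k20, mul_comm (S.s (z 2 0)), mul_inv_cancel_left₀ hl0']
  have hgi : ∀ i, (((S.G i)⁻¹ : Eˣ) : E) = (S.G i : E)⁻¹ := fun i => Units.val_inv_eq_inv_val _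
  rw [InD0]
  ext i j
  fin_cases i <;> fin_cases j
  · simp only [u0, Matrix.mul_apply, Fin.sum_univ_three, Matrix.of_apply, Matrix.cons_val',
      Matrix.cons_val_zero, Matrix.cons_val_one, Matrix.cons_val, Matrix.map_apply, mul_zero,
      zero_mul, mul_one, one_mul, add_zero, zero_add, Fin.zero_eta, Fin.mk_one, Fin.reduceFinMk,
      dag_apply, map_mul, hgi, map_inv₀, r0, r1, r2, hl]
    rw [j10]
    field_simp
  · simp only [u0, Matrix.mul_apply, Fin.sum_univ_three, Matrix.of_apply, Matrix.cons_val',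
      Matrix.cons_val_zero, Matrix.cons_val_one, Matrix.cons_val, Matrix.map_apply, mul_zero,
      zero_mul, mul_one, one_mul, add_zero, zero_add, Fin.zero_eta, Fin.mk_one, Fin.reduceFinMk,
      dag_apply, map_mul, hgi, map_inv₀, r0, r1, r2, hl]
    rw [j20]
    field_simp
  · simp only [u0, Matrix.mul_apply, Fin.sum_univ_three, Matrix.of_apply, Matrix.cons_val',
      Matrix.cons_val_zero, Matrix.cons_val_one, Matrix.cons_val, Matrix.map_apply, mul_zero,
      zero_mul, mul_one, one_mul, add_zero, zero_add, Fin.zero_eta, Fin.mk_one, Fin.reduceFinMk,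
      dag_apply, map_mul, hgi, map_inv₀, r0, r1, r2, hl]
    rw [k00]
    field_simp
  · simp only [u0, Matrix.mul_apply, Fin.sum_univ_three, Matrix.of_apply, Matrix.cons_val',
      Matrix.cons_val_zero, Matrix.cons_val_one, Matrix.cons_val, Matrix.map_apply, mul_zero,
      zero_mul, mul_one, one_mul, add_zero, zero_add, Fin.zero_eta, Fin.mk_one, Fin.reduceFinMk,
      dag_apply, map_mul, hgi, map_inv₀, r0, r1, r2, hl]
    rw [k11]
    field_simp
  · simp only [u0, Matrix.mul_apply, Fin.sum_univ_three, Matrix.of_apply, Matrix.cons_val',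
      Matrix.cons_val_zero, Matrix.cons_val_one, Matrix.cons_val, Matrix.map_apply, mul_zero,
      zero_mul, mul_one, one_mul, add_zero, zero_add, Fin.zero_eta, Fin.mk_one, Fin.reduceFinMk,
      dag_apply, map_mul, hgi, map_inv₀, r0, r1, r2, hl]
    rw [k21]
    field_simp
  · simp only [u0, Matrix.mul_apply, Fin.sum_univ_three, Matrix.of_apply, Matrix.cons_val',
      Matrix.cons_val_zero, Matrix.cons_val_one, Matrix.cons_val, Matrix.map_apply, mul_zero,
      zero_mul, mul_one, one_mul, add_zero, zero_add, Fin.zero_eta, Fin.mk_one, Fin.reduceFinMk,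
      dag_apply, map_mul, hgi, map_inv₀, r0, r1, r2, hl]
    rw [k01]
    field_simp
  · simp only [u0, Matrix.mul_apply, Fin.sum_univ_three, Matrix.of_apply, Matrix.cons_val',
      Matrix.cons_val_zero, Matrix.cons_val_one, Matrix.cons_val, Matrix.map_apply, mul_zero,
      zero_mul, mul_one, one_mul, add_zero, zero_add, Fin.zero_eta, Fin.mk_one, Fin.reduceFinMk,
      dag_apply, map_mul, hgi, map_inv₀, r0, r1, r2, hl]
    rw [k12]
    field_simp
  · simp only [u0, Matrix.mul_apply, Fin.sum_univ_three, Matrix.of_apply, Matrix.cons_val',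
      Matrix.cons_val_zero, Matrix.cons_val_one, Matrix.cons_val, Matrix.map_apply, mul_zero,
      zero_mul, mul_one, one_mul, add_zero, zero_add, Fin.zero_eta, Fin.mk_one, Fin.reduceFinMk,
      dag_apply, map_mul, hgi, map_inv₀, r0, r1, r2, hl]
    rw [k22]
    field_simp
  · simp only [u0, Matrix.mul_apply, Fin.sum_univ_three, Matrix.of_apply, Matrix.cons_val',
      Matrix.cons_val_zero, Matrix.cons_val_one, Matrix.cons_val, Matrix.map_apply, mul_zero,
      zero_mul, mul_one, one_mul, add_zero, zero_add, Fin.zero_eta, Fin.mk_one, Fin.reduceFinMk,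
      dag_apply, map_mul, hgi, map_inv₀, r0, r1, r2, hl]
    rw [k02]
    field_simp

theorem dag_dag (z : Matrix (Fin 3) (Fin 3) E) : S.dag (S.dag z) = z := by
  ext i j
  have h : ∀ i, S.s (((S.G i)⁻¹ : Eˣ) : E) = (((S.G i)⁻¹ : Eˣ) : E) := fun i => by
    rw [Units.val_inv_eq_inv_val, map_inv₀, S.sG]
  rw [dag_apply, dag_apply, map_mul, map_mul, S.ss, h, S.sG]
  have h1 := Units.inv_mul (S.G i)
  have h2 := Units.inv_mul (S.G j)
  linear_combination (((S.G j)⁻¹ : Eˣ) * (S.G j : E) * z i j) * h1 + z i j * h2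

theorem dag_mul (x y : Matrix (Fin 3) (Fin 3) E) : S.dag (x * y) = S.dag y * S.dag x := by
  ext i j
  rw [Matrix.mul_apply, dag_apply, Matrix.mul_apply, map_sum, Finset.mul_sum, Finset.sum_mul]
  refine Finset.sum_congr rfl fun l _ => ?_
  rw [dag_apply, dag_apply, map_mul]
  have h1 := Units.mul_inv (S.G l)
  linear_combination (-((S.G i)⁻¹ : Eˣ) * S.s (x j l) * S.s (y l i) * S.G j) * h1

theorem dag_add (x y : Matrix (Fin 3) (Fin 3) E) : S.dag (x + y) = S.dag x + S.dag y := by
  ext i j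
  rw [Matrix.add_apply, dag_apply, Matrix.add_apply, map_add, dag_apply, dag_apply]
  ring

/-- The unitary involution. -/
noncomputable instance : StarRing S.D where
  star z := S.el (S.dag_mem z.2)
  star_involutive z := Subtype.ext (S.dag_dag z.1)
  star_mul x y := Subtype.ext (S.dag_mul x.1 y.1)
  star_add x y := Subtype.ext (S.dag_add x.1 y.1)

theorem f_star (z : S.D) : S.f (star z) = S.dag (S.f z) := rfl

instance : StarModule K S.D := ⟨fun t x => by
  apply S.f_injective
  rw [f_star, map_smul, map_smul, f_star]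
  ext i j
  rw [dag_apply, Matrix.smul_apply, Matrix.smul_apply, dag_apply, Algebra.smul_def,
    Algebra.smul_def, map_mul, S.sK]
  ring⟩

/-- The diagonal elements. -/
def dg (x : E) : S.D := S.el (col_mem S.ρ3 ![x, 0, 0])

theorem f_dg (x : E) : S.f (S.dg x) = Matrix.diagonal ![x, S.ρ x, S.ρ (S.ρ x)] := by
  change col S.ρ S.lam ![x, 0, 0] = _
  ext i j
  fin_cases i <;> fin_cases j <;> simp [col]

theorem u0_mem : InD0 S.ρ S.lam (u0 E S.lam) := by
  have h1 := rho_inv (ρ := S.ρ) (lam := S.lam)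
  rw [InD0]
  congr 1
  ext i j
  fin_cases i <;> fin_cases j <;> simp [u0, h1]

instance : Algebra.IsCentral K S.D := by
  refine ⟨fun z hz => ?_⟩
  rw [Subalgebra.mem_center_iff] at hz
  obtain ⟨x, hx⟩ := S.ρ1
  have h1 := congrArg S.f (hz (S.dg x))
  have h2 := congrArg S.f (hz (S.el S.u0_mem))
  rw [map_mul, map_mul, f_dg] at h1
  rw [map_mul, map_mul, f_el] at h2
  obtain ⟨h01, h11, h21, h02, h12, h22, h00, h10, h20⟩ := entries (S.f_mem z)
  have e10 := congrFun (congrFun h1 1) 0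
  have e20 := congrFun (congrFun h1 2) 0
  simp only [Matrix.mul_apply, Fin.sum_univ_three, Matrix.diagonal_apply, Matrix.cons_val_zero,
    Matrix.cons_val_one, Matrix.cons_val] at e10 e20
  simp at e10 e20
  have hx2 : S.ρ (S.ρ x) ≠ x := by
    intro h
    apply hx
    have := congrArg S.ρ h
    rw [S.ρ3] at this
    exact this.symm
  have z10 : S.f z 1 0 = 0 := by
    have : (S.ρ x - x) * S.f z 1 0 = 0 := by linear_combination e10
    exact (mul_eq_zero.mp this).resolve_left (sub_ne_zero.mpr hx)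
  have z20 : S.f z 2 0 = 0 := by
    have : (S.ρ (S.ρ x) - x) * S.f z 2 0 = 0 := by linear_combination e20
    exact (mul_eq_zero.mp this).resolve_left (sub_ne_zero.mpr hx2)
  have e3 := congrFun (congrFun h2 1) 0
  simp [u0, Matrix.mul_apply, Fin.sum_univ_three] at e3
  rw [h11] at e3
  rw [z20, map_zero, mul_zero] at h01
  rw [z10, map_zero] at h21
  rw [h21, map_zero, mul_zero] at h02
  rw [h01, map_zero] at h12
  rw [h11] at h22
  obtain ⟨t, ht⟩ := S.fix _ e3.symm
  rw [Algebra.mem_bot]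
  refine ⟨t, ?_⟩
  apply S.f_injective
  rw [AlgHom.commutes]
  ext i j
  rw [Matrix.algebraMap_matrix_apply]
  fin_cases i <;> fin_cases j <;>
    simp [ht, h01, h11, h21, h02, h12, h22, z10, z20, ← e3]

end Dat

end Vale.Agent.P011.E6O
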