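import Vale.Agent.P011.E6I.Defs

/-!
The outer groups of type `E₆` attached to a cyclic algebra of degree three with unitary involution
and an octonion algebra which contains the quadratic extension.
-/

open NumberField

namespace Vale.Agent.P011.E6O

open Vale.Agent.P011.MPQ Vale.Agent.P011.D4 Vale.Agent.P011.D4.Oct Vale.Agent.P011.E6
open Vale.Agent.P011.E6I (MQ toMQ)
open scoped ComplexConjugate

variable {k E : Type} [Field k] [Field E] [Algebra k E]

/-- The semilinear map `X ↦ λ u ρ(X) uᵗ`, where `u` is the matrix with `u e₁ = e₂`, `u e₂ = e₃`,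
`u e₃ = λ⁻¹ e₁`. Its cube is the multiplication by `λ`. -/
def ph (ρ : E ≃ₐ[k] E) (lam : Eˣ) {a b c : kˣ} (x : AlbL E a b c) : AlbL E a b c :=
  ⟨(lam⁻¹ : Eˣ) * ρ x.d3, (lam : E) * ρ x.d1, (lam : E) * ρ x.d2,
    (lam : E) • omap ρ x.x3, omap ρ x.x1, omap ρ x.x2⟩

/-- The hermitian form attached to the weights. -/
def her (σ : E ≃ₐ[k] E) (g : Fin 3 → Eˣ) {a b c : kˣ} (x y : AlbL E a b c) : E :=
  Alb.tf (Alb.wt g x) (amap σ y)

/-- The group of the `E`-linear maps which preserve the cubic norm and the hermitian form and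
commute with the semilinear map `ph`. -/
def GO (ρ σ : E ≃ₐ[k] E) (lam : Eˣ) (g : Fin 3 → Eˣ) (a b c : kˣ) :
    Subgroup (AlbL E a b c ≃ₗ[E] AlbL E a b c) where
  carrier := {φ | (∀ x, Alb.cub (φ x) = Alb.cub x) ∧ (∀ x, φ (ph ρ lam x) = ph ρ lam (φ x)) ∧
    ∀ x y, her σ g (φ x) (φ y) = her σ g x y}
  mul_mem' := by
    rintro φ ψ ⟨h1, h2, h3⟩ ⟨h4, h5, h6⟩
    refine ⟨fun x => ?_, fun x => ?_, fun x y => ?_⟩
    · rw [LinearEquiv.mul_apply, h1, h4]
    · rw [LinearEquiv.mul_apply, LinearEquiv.mul_apply, h5, h2]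
    · rw [LinearEquiv.mul_apply, LinearEquiv.mul_apply, h3, h6]
  one_mem' := ⟨fun _ => rfl, fun _ => rfl, fun _ _ => rfl⟩
  inv_mem' := by
    rintro φ ⟨h1, h2, h3⟩
    have h : ∀ z, φ (φ⁻¹ z) = z := fun z => by
      rw [← LinearEquiv.mul_apply, mul_inv_cancel]; rfl
    refine ⟨fun x => ?_, fun x => ?_, fun x y => ?_⟩
    · rw [← h1, h]
    · apply φ.injective
      rw [h, h2, h]
    · rw [← h3, h, h]

/-- The finite residual of the group, as a group of linear maps. -/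
def Res (ρ σ : E ≃ₐ[k] E) (lam : Eˣ) (g : Fin 3 → Eˣ) (a b c : kˣ) :
    Subgroup (AlbL E a b c ≃ₗ[E] AlbL E a b c) :=
  (sInf {N : Subgroup (GO ρ σ lam g a b c) | N.index ≠ 0}).map (GO ρ σ lam g a b c).subtype

/-- The matrix `u`. -/
def um (lam : Eˣ) : Matrix (Fin 3) (Fin 3) E :=
  !![0, 0, (lam⁻¹ : Eˣ); 1, 0, 0; 0, 1, 0]

/-- The matrix belongs to the algebra `D ⊗ Q`. -/
def InD (ρ : E ≃ₐ[k] E) (lam : Eˣ) {a b : kˣ} (m : MQ E a b) : Prop :=
  m * toMQ (um lam) = toMQ (um lam) * m.map (qmap ρ)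

/-- The matrix over `E` belongs to the algebra `D`. -/
def InD0 (ρ : E ≃ₐ[k] E) (lam : Eˣ) (z : Matrix (Fin 3) (Fin 3) E) : Prop :=
  z * um lam = um lam * z.map ρ

/-- The matrix is unitary up to the factor `μ`. -/
def IsUn (σ : E ≃ₐ[k] E) (g : Fin 3 → Eˣ) {a b : kˣ} (μ : E) (m : MQ E a b) : Prop :=
  (m.map (qmap σ)).conjTranspose * dg (up E a) (up E b) g * m = μ • dg (up E a) (up E b) g

/-- The hypotheses of the theorem. -/
structure Hyp (ρ σ : E ≃ₐ[k] E) (lam : Eˣ) (g : Fin 3 → Eˣ) (al s : E) (a b c : kˣ) : Prop where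
  /-- the extension has degree six -/
  h6 : Module.finrank k E = 6
  /-- `ρ` is not trivial -/
  hρ : ρ ≠ 1
  /-- `ρ` has order three -/
  ρ3 : ∀ x, ρ (ρ (ρ x)) = x
  /-- `σ` is not trivial -/
  hσ : σ ≠ 1
  /-- `σ` has order two -/
  σ2 : ∀ x, σ (σ x) = x
  /-- `ρ` and `σ` commute -/
  comm : ∀ x, ρ (σ x) = σ (ρ x)
  /-- `al` is a square root of `a` -/
  al2 : al ^ 2 = algebraMap k E a
  /-- `al` is fixed by `ρ` -/
  ρal : ρ al = al
  /-- `σ` changes the sign of `al` -/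
  σal : σ al = -al
  /-- `lam` is fixed by `ρ` -/
  ρlam : ρ lam = lam
  /-- the cyclic algebra is not split -/
  hlam : ∀ x, x * ρ x * ρ (ρ x) ≠ lam
  /-- the weights are fixed by `σ` -/
  σg : ∀ i, σ (g i) = g i
  /-- `s` is fixed by `σ` -/
  σs : σ s = s
  /-- the relations between the weights -/
  g1 : (g 1 : E) = s * ρ (g 0)
  /-- the relations between the weights -/
  g2 : (g 2 : E) = s * ρ (g 1)
  /-- the relations between the weights -/
  g0 : (g 0 : E) = lam * σ lam * s * ρ (g 2)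
  /-- the octonion algebra is not split -/
  hdiv : Division a b c
  /-- definiteness at the real places which do not split -/
  hre : ∀ τ : k →+* ℝ, τ a < 0 → τ b < 0 ∧ τ c < 0
  /-- definiteness at the real places which do not split -/
  hpos : ∀ w : E →+* ℂ, (∀ x, w (σ x) = conj (w x)) →
    0 < (w (g 0 * g 1)).re ∧ 0 < (w (g 1 * g 2)).re

/-- The idempotent `(1 + i/al)/2`. -/
def ep (al : E) {a b : kˣ} : Qt (up E a) (up E b) := ⟨1 / 2, 1 / (2 * al), 0, 0⟩

/-- The idempotent `(1 - i/al)/2`. -/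
def em (al : E) {a b : kˣ} : Qt (up E a) (up E b) := ⟨1 / 2, -(1 / (2 * al)), 0, 0⟩

/-- The space of the elements `(0, 0, 0; r₁ x, r₂ x, r₃ x)`. -/
def Apt {a b c : kˣ} (x : OctL E a b c) : Submodule E (AlbL E a b c) where
  carrier := {y | ∃ r : Fin 3 → E, y = ⟨0, 0, 0, r 0 • x, r 1 • x, r 2 • x⟩}
  zero_mem' := ⟨0, by ext1 <;> simp⟩
  add_mem' := by
    rintro y z ⟨r, rfl⟩ ⟨t, rfl⟩
    exact ⟨r + t, by ext1 <;> simp [add_smul]⟩
  smul_mem' := by
    rintro t y ⟨r, rfl⟩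
    exact ⟨t • r, by ext1 <;> simp [mul_smul]⟩

/-- The space of the elements `(0, 0, 0; (e q₁) l, (e q₂) l, (e q₃) l)`, for `e` a quaternion. -/
def Iln {a b : kˣ} (c : kˣ) (e : Qt (up E a) (up E b)) : Submodule E (AlbL E a b c) where
  carrier := {y | ∃ q : Fin 3 → Qt (up E a) (up E b),
    y = ⟨0, 0, 0, ⟨0, e * q 0⟩, ⟨0, e * q 1⟩, ⟨0, e * q 2⟩⟩}
  zero_mem' := ⟨0, by ext1 <;> simp <;> rfl⟩
  add_mem' := by
    rintro y z ⟨r, rfl⟩ ⟨t, rfl⟩
    refine ⟨r + t, ?_⟩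
    ext1
    · simp
    · simp
    · simp
    all_goals
      ext1
      · simp
      · simp [mul_add]
  smul_mem' := by
    rintro t y ⟨r, rfl⟩
    refine ⟨t • r, ?_⟩
    ext1
    · simp
    · simp
    · simp
    all_goals
      ext1
      · simp
      · simp

/-- A point: a subspace of dimension three, stable by `ph`, with zero adjoints. -/
structure IsPt (ρ : E ≃ₐ[k] E) (lam : Eˣ) {a b c : kˣ} (A : Submodule E (AlbL E a b c)) : Prop where
  dim : Module.finrank E A = 3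
  ph : ∀ x ∈ A, ph ρ lam x ∈ A
  adj : ∀ x ∈ A, Alb.adj x = 0

/-- The nilpotent octonions over the fixed field of `ρ`. -/
structure Nilp (ρ : E ≃ₐ[k] E) {a b c : kˣ} (x : OctL E a b c) : Prop where
  ne : x ≠ 0
  sq : x * x = 0
  tr : star x = -x
  fix : omap ρ x = x

end Vale.Agent.P011.E6O
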