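import Vale.Agent.P011.E6O.Trans
import Vale.Agent.P011.E6O.Dict
import Vale.Agent.P011.E6O.H68.S3a

/-!
The cyclic algebra attached to the data of the outer group: the anisotropic form, the moves and
the matched pairs.
-/

open Matrix Module NumberField

namespace Vale.Agent.P011.E6O

open Vale.Agent.P011.MPQ Vale.Agent.P011.D4 Vale.Agent.P011.D4.Oct Vale.Agent.P011.E6
open Vale.Agent.P011.E6I (MQ toMQ u0)
open Vale.Agent.P011S (redNorm)
open Vale.Agent.P011.E6O.H68 (Hf Hi Hf_Hi Hi_Hf)

section form

variable {K E : Type} [Field K] [StarRing K] [Field E] [Algebra K E] (S : Dat K E)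

theorem Hb_eq (β : K) : Hb K S.D β = Hi S β := by
  rw [Hb, Hi, map_neg]

/-- The two conventions of the isometries. -/
theorem IsSU2.hf {β : K} (h0 : β ≠ 0) {m : Matrix (Fin 2) (Fin 2) S.D} (hm : IsSU2 S.f β m) :
    mᴴ * Hf S β * m = Hf S β := by
  have h1 := hm.isom
  rw [Hb_eq] at h1
  have h2 : m * (Hi S β * mᴴ * Hf S β) = 1 := by
    rw [← Matrix.mul_assoc, ← Matrix.mul_assoc, h1, Hi_Hf S h0]
  have h3 : (Hi S β * mᴴ * Hf S β) * m = 1 := mul_eq_one_comm.mp h2
  have h4 := congrArg (fun x => Hf S β * x) h3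
  simpa only [← Matrix.mul_assoc, Hf_Hi S h0, Matrix.one_mul, Matrix.mul_one] using h4

theorem redNorm_diag (t t' : S.D) :
    redNorm S.f (Fin 2) (Matrix.diagonal ![t, t']) = (S.f t).det * (S.f t').det := by
  rw [E6O.H68.redNorm_eq]
  have e : (Matrix.of fun a b : Fin 2 × Fin 3 =>
      S.f ((Matrix.diagonal ![t, t'] : Matrix (Fin 2) (Fin 2) S.D) a.1 b.1) a.2 b.2) =
      (Matrix.blockDiagonal fun i => S.f ((![t, t'] : Fin 2 → S.D) i)).submatrix
        (Equiv.prodComm (Fin 2) (Fin 3)) (Equiv.prodComm (Fin 2) (Fin 3)) := by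
    ext ⟨i, p⟩ ⟨j, q⟩
    rw [Matrix.of_apply, Matrix.submatrix_apply, Matrix.diagonal_apply]
    change _ = Matrix.blockDiagonal _ (p, i) (q, j)
    rw [Matrix.blockDiagonal_apply]
    dsimp only
    split
    · rfl
    · rw [map_zero]
      rfl
  rw [e, Matrix.det_submatrix_equiv_self, Matrix.det_blockDiagonal, Fin.prod_univ_two]
  rfl

end form

section hyp

variable {k E : Type} [Field k] [NumberField k] [Field E] [NumberField E] [Algebra k E]
  {ρ σ : E ≃ₐ[k] E} {lam : Eˣ} {g : Fin 3 → Eˣ} {al s : E} {a b c : kˣ}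

/-- The properties of the cyclic algebra attached to the data of the outer group. -/
structure IsDat (ρ σ : E ≃ₐ[k] E) (lam : Eˣ) (g : Fin 3 → Eˣ) (b : kˣ) {K : Type} [Field K]
    [NumberField K] [StarRing K] [Algebra K E] (S : Dat K E) (β : K) : Prop where
  eqρ : ∀ x, S.ρ x = ρ x
  eqs : ∀ x, S.s x = σ x
  eqlam : algebraMap K E (S.lam : K) = lam
  eqG : S.G = g
  fix : ∀ x : E, ρ x = x → ∃ t : K, algebraMap K E t = x
  fix' : ∀ t : K, ρ (algebraMap K E t) = algebraMap K E t
  eqstar : ∀ t : K, algebraMap K E (star t) = σ (algebraMap K E t)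
  hK : ∃ t : K, star t ≠ t
  eqβ : algebraMap K E β = up E b
  sβ : star β = β
  β0 : β ≠ 0
  /-- `β` is not a norm -/
  not_norm : ∀ x : K, x * star x ≠ β
  /-- the form is anisotropic -/
  an : ∀ x y : S.D, x * star x + y * algebraMap K S.D (-β) * star y = 0 → x = 0 ∧ y = 0
  /-- every line is moved to a line defined over the centre -/
  T : ∀ z₁ z₂ : S.D, z₁ ≠ 0 ∨ z₂ ≠ 0 → ∃ (m : Matrix (Fin 2) (Fin 2) S.D) (δ : S.D) (κ₁ κ₂ : K),
    δ ≠ 0 ∧ (κ₁ ≠ 0 ∨ κ₂ ≠ 0) ∧ mᴴ * Hf S β * m = Hf S β ∧ redNorm S.f (Fin 2) m = 1 ∧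
      z₁ * m 0 0 + z₂ * m 1 0 = δ * algebraMap K S.D κ₁ ∧
      z₁ * m 0 1 + z₂ * m 1 1 = δ * algebraMap K S.D κ₂
  /-- the matched pairs -/
  matched : ∀ t : S.D, t * star t = 1 → ∃ t' : S.D, t' * star t' = 1 ∧
    (S.f t).det * (S.f t').det = 1

/-- The cyclic algebra attached to the data of the outer group. -/
theorem Hyp.exists_isDat (H : Hyp ρ σ lam g al s a b c) :
    ∃ (K : Type) (_ : Field K) (_ : NumberField K) (_ : StarRing K) (_ : Algebra K E)
      (S : Dat K E) (β : K), IsDat ρ σ lam g b S β := by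
  obtain ⟨K, _, _, _, _, S, h1, h2, h3, h4, h5, h6, h7, h8, hK⟩ := H.exists_dat
  obtain ⟨β, hβ⟩ := h6 (algebraMap k E b) (ρ.commutes _)
  have hsβ : star β = β := by
    apply (algebraMap K E).injective
    rw [h8, hβ, AlgEquiv.commutes]
  have hβ0 : β ≠ 0 := by
    rintro rfl
    rw [map_zero] at hβ
    exact b.ne_zero ((map_eq_zero _).mp hβ.symm)
  have hn : ∀ x : K, x * star x ≠ β := by
    intro x hx
    apply H.not_norm (h7 x)
    rw [← h8, ← map_mul, hx, hβ]
  have hdef : ∀ w : E →+* ℂ, (∀ x, w (S.s x) = star (w x)) →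
      (w (algebraMap K E β)).re < 0 ∧
        ((∀ i, 0 < (w (S.G i)).re) ∨ ∀ i, (w (S.G i)).re < 0) := by
    intro w hw
    have hw' : ∀ x, w (σ x) = star (w x) := fun x => by rw [← h2, hw]
    -- the real place of `k`
    have hre : ∀ x : k, ((w (algebraMap k E x)).re : ℂ) = w (algebraMap k E x) := by
      intro x
      have h1 := hw' (algebraMap k E x)
      rw [AlgEquiv.commutes] at h1
      exact Complex.conj_eq_iff_re.mp h1.symm
    let τ : k →+* ℝ :=
      { toFun := fun a => (w (algebraMap k E a)).re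
        map_one' := by simp
        map_zero' := by simp
        map_add' := fun a b => by simp
        map_mul' := fun a b => by
          rw [map_mul, map_mul, ← hre a, ← hre b, ← Complex.ofReal_mul, Complex.ofReal_re,
            Complex.ofReal_re, Complex.ofReal_re] }
    have hτ : ∀ x, (τ x : ℂ) = w (algebraMap k E x) := hre
    have ha : τ a < 0 := by
      have h1 : (w al).re = 0 := by
        have h1 := hw' al
        rw [H.σal, map_neg] at h1
        have h2 := congrArg Complex.re h1
        simp only [Complex.neg_re, Complex.star_def, Complex.conj_re] at h2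
        linarith
      have h2 : w al = ((w al).im : ℂ) * Complex.I := by
        apply Complex.ext
        · simp [h1]
        · simp
      have h3 : (w al).im ≠ 0 := by
        intro h
        rw [h, Complex.ofReal_zero, zero_mul] at h2
        exact H.al_ne ((map_eq_zero w).mp h2)
      have h4 : (τ a : ℂ) = ((-((w al).im ^ 2) : ℝ) : ℂ) := by
        rw [hτ, ← H.al2, map_pow, h2]
        push_cast
        rw [mul_pow, Complex.I_sq]
        simp
      have h5 : τ a = -((w al).im ^ 2) := by exact_mod_cast h4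
      rw [h5]
      have : 0 < (w al).im ^ 2 := by positivity
      linarith
    have hb := (H.hre τ ha).1
    obtain ⟨hp1, hp2⟩ := H.hpos w hw'
    refine ⟨by rw [hβ]; exact hb, ?_⟩
    rw [h4]
    have hreal : ∀ i, (w (g i)).im = 0 := by
      intro i
      have h1 := hw' (g i)
      rw [H.σg] at h1
      exact Complex.conj_eq_iff_im.mp h1.symm
    rw [map_mul, Complex.mul_re, hreal, hreal, mul_zero, sub_zero] at hp1 hp2
    rcases lt_trichotomy (w (g 1)).re 0 with h | h | h
    · right
      have h0 : (w (g 0)).re < 0 := by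
        by_contra h'
        push Not at h'
        nlinarith
      have h2 : (w (g 2)).re < 0 := by
        by_contra h'
        push Not at h'
        nlinarith
      intro i
      fin_cases i
      · exact h0
      · exact h
      · exact h2
    · rw [h, mul_zero] at hp1
      exact absurd hp1 (lt_irrefl _)
    · left
      have h0 : 0 < (w (g 0)).re := by
        by_contra h'
        push Not at h'
        nlinarith
      have h2 : 0 < (w (g 2)).re := by
        by_contra h'
        push Not at h'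
        nlinarith
      intro i
      fin_cases i
      · exact h0
      · exact h
      · exact h2
  refine ⟨K, _, _, _, _, S, β, ⟨h1, h2, h3, h4, h6, h7, h8, hK, hβ, hsβ, hβ0, hn, ?_, ?_, ?_⟩⟩
  · intro x y h
    apply aniso_b S hsβ hn
    rw [← h, map_neg, mul_neg, neg_mul, ← sub_eq_add_neg, Algebra.smul_def,
      ← Algebra.commutes β y, mul_assoc]
  · intro z₁ z₂ hz
    obtain ⟨m, δ, κ₁, κ₂, hm, hδ, hκ, h⟩ := exists_T S hK hsβ hn hdef z₁ z₂ hz
    refine ⟨m, δ, κ₁, κ₂, hδ, ?_, hm.hf S hβ0, hm.nrm, ?_, ?_⟩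
    · by_contra h0
      push Not at h0
      apply hκ
      rw [h0.1, h0.2]
      simp
    · have := congrArg Prod.fst h
      rw [← Algebra.commutes, ← Algebra.smul_def]
      exact this
    · have := congrArg Prod.snd h
      rw [← Algebra.commutes, ← Algebra.smul_def]
      exact this
  · intro t ht
    obtain ⟨t', ht'⟩ := exists_matched_b S.f hK (by norm_num) S.finrank_D hsβ
      (aniso_b S hsβ hn) ht
    refine ⟨t', ?_, ?_⟩
    · have h := congrArg (fun m => m 1 1) ht'.isom
      simp only [Hb, Matrix.diagonal_mul_diagonal, Matrix.diagonal_conjTranspose,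
        Matrix.diagonal_apply_eq] at h
      change t' * -algebraMap K S.D β * star t' = -algebraMap K S.D β at h
      have hβ' : -algebraMap K S.D β ≠ 0 :=
        neg_ne_zero.mpr fun h => hβ0 ((map_eq_zero _).mp h)
      apply mul_left_cancel₀ hβ'
      rw [mul_one, ← mul_assoc]
      nth_rewrite 2 [← h]
      rw [neg_mul, Algebra.commutes, mul_neg]
    · rw [← redNorm_diag]
      exact ht'.nrm

end hyp

end Vale.Agent.P011.E6O
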