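import Vale.Agent.P011.E6O.Defs
import Vale.Agent.P011.D4.Defs3

/-!
The standard points.
-/

namespace Vale.Agent.P011.E6O

open Vale.Agent.P011.MPQ Vale.Agent.P011.D4 Vale.Agent.P011.D4.Oct Vale.Agent.P011.E6

variable {k E : Type} [Field k] [Field E] [Algebra k E]

/-- The standard point attached to an octonion orthogonal to `1` and `i`. -/
def Pw (al : E) {a b c : kˣ} (w : Oct a b c) : Submodule E (AlbL E a b c) :=
  Apt (⟨ep al, 0⟩ * oup E w)

/-- The opposite standard point. -/
def Pm (al : E) {a b c : kˣ} (w : Oct a b c) : Submodule E (AlbL E a b c) :=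
  Apt (⟨em al, 0⟩ * oup E w)

/-- The octonion is nonzero and orthogonal to `1` and `i`. -/
structure Perp {a b c : kˣ} (w : Oct a b c) : Prop where
  ne : w ≠ 0
  tr : star w = -w
  i : dot gi w = 0

end Vale.Agent.P011.E6O
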