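import Vale.Agent.P011.E6O.DatT
import Vale.Agent.P011.E6O.H408.Mq

/-!
The matched pairs over the data of the outer group.
-/

open Matrix Module NumberField

set_option linter.unusedSectionVars false

namespace Vale.Agent.P011.E6O

open Vale.Agent.P011.MPQ Vale.Agent.P011.D4 Vale.Agent.P011.D4.Oct Vale.Agent.P011.E6
open Vale.Agent.P011.E6I (MQ toMQ u0)

variable {k E : Type} [Field k] [NumberField k] [Field E] [NumberField E] [Algebra k E]
  {ρ σ : E ≃ₐ[k] E} {lam : Eˣ} {g : Fin 3 → Eˣ} {al s : E} {a b c : kˣ}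

section dat

variable {K : Type} [Field K] [NumberField K] [StarRing K] [Algebra K E] {S : Dat K E} {β : K}

theorem IsDat.u0_eq (hS : IsDat ρ σ lam g b S β) : u0 E S.lam = um lam := by
  have e : (up E S.lam : Eˣ) = lam := Units.ext hS.eqlam
  rw [u0, um, e]

theorem IsDat.inD0_iff (hS : IsDat ρ σ lam g b S β) (z : Matrix (Fin 3) (Fin 3) E) :
    InD0 ρ lam z ↔ E6I.InD0 S.ρ S.lam z := by
  have e : z.map S.ρ = z.map ρ := by
    ext i j
    rw [Matrix.map_apply, Matrix.map_apply, hS.eqρ]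
  rw [InD0, E6I.InD0, hS.u0_eq, e]

theorem IsDat.dag_eq (hS : IsDat ρ σ lam g b S β) (z : Matrix (Fin 3) (Fin 3) E) :
    S.dag z = Matrix.diagonal (fun i => (((g i)⁻¹ : Eˣ) : E)) *
      ((z.map σ).transpose * Matrix.diagonal (fun i => (g i : E))) := by
  ext i j
  rw [Matrix.diagonal_mul, Matrix.mul_diagonal, Matrix.transpose_apply, Matrix.map_apply,
    S.dag_apply, hS.eqs, hS.eqG]
  ring

theorem IsDat.un_iff (hS : IsDat ρ σ lam g b S β) (z : Matrix (Fin 3) (Fin 3) E) :
    (z.map σ).transpose * Matrix.diagonal (fun i => (g i : E)) * z =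
      Matrix.diagonal (fun i => (g i : E)) ↔ S.dag z * z = 1 := by
  have h1 : (Matrix.diagonal (fun i => (((g i)⁻¹ : Eˣ) : E)) : Matrix (Fin 3) (Fin 3) E) *
      Matrix.diagonal (fun i => (g i : E)) = 1 := by
    rw [Matrix.diagonal_mul_diagonal, ← Matrix.diagonal_one]
    congr 1
    funext i
    exact Units.inv_mul _
  have e : ∀ A B C : Matrix (Fin 3) (Fin 3) E, A * B * C = A * (B * C) := Matrix.mul_assoc
  rw [hS.dag_eq, e (Matrix.diagonal _) _ z]
  constructor
  · intro h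
    rw [h, h1]
  · intro h
    have h2 := mul_eq_one_comm.mp h1
    have h3 := congrArg (fun x => Matrix.diagonal (fun i => (g i : E)) * x) h
    simpa only [← Matrix.mul_assoc, h2, Matrix.one_mul, Matrix.mul_one] using h3

/-- The unitary elements. -/
theorem IsDat.un_el (hS : IsDat ρ σ lam g b S β) (x : S.D) :
    (((S.f x).map σ).transpose * Matrix.diagonal (fun i => (g i : E)) * S.f x =
      Matrix.diagonal (fun i => (g i : E))) ↔ x * star x = 1 := by
  rw [hS.un_iff, ← S.f_star, ← map_mul]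
  constructor
  · intro h
    exact mul_eq_one_comm.mp (S.f_injective (h.trans (map_one S.f).symm))
  · intro h
    rw [mul_eq_one_comm.mp h, map_one]

end dat

/-- The matched pairs. -/
theorem matched (H : Hyp ρ σ lam g al s a b c) {z : Matrix (Fin 3) (Fin 3) E}
    (hz : InD0 ρ lam z)
    (hu : (z.map σ).transpose * Matrix.diagonal (fun i => (g i : E)) * z =
      Matrix.diagonal (fun i => (g i : E))) :
    ∃ (z' : Matrix (Fin 3) (Fin 3) E) (m : (MQ E a b)ˣ), InD0 ρ lam z' ∧
      (z'.map σ).transpose * Matrix.diagonal (fun i => (g i : E)) * z' =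
        Matrix.diagonal (fun i => (g i : E)) ∧ z.det * z'.det = 1 ∧
      (m : MQ E a b) = (toMQ z * Matrix.diagonal (fun _ => ep al) +
        toMQ z' * Matrix.diagonal (fun _ => em al)) ∧
      InD ρ lam (m : MQ E a b) ∧ IsUn σ g 1 (m : MQ E a b) ∧ nu (m : MQ E a b) = 1 := by
  obtain ⟨K, _, _, _, _, S, β, hS⟩ := H.exists_isDat
  obtain ⟨x, rfl⟩ := (S.range_f z).mp ((hS.inD0_iff z).mp hz)
  obtain ⟨t, ht, hd⟩ := hS.matched x ((hS.un_el x).mp hu)
  have ht1 : InD0 ρ lam (S.f t) := (hS.inD0_iff _).mpr (S.f_mem t)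
  have ht2 := (hS.un_el t).mpr ht
  obtain ⟨m, h1, -, h2, h3, h4⟩ := H408.exists_m (b := b) H.al2 H.ρal H.σal hz ht1 hu ht2 hd
  exact ⟨S.f t, m, ht1, ht2, hd, h1, h2, h3, h4⟩

end Vale.Agent.P011.E6O
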