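import Vale.Agent.P011.E6O.DD
import Vale.Agent.P011.Even.R1
import Vale.Agent.P011.Three.Sig

/-!
Hermitian forms of rank one over a cyclic algebra of degree three with a unitary involution: two
symmetric elements are similar if and only if they have the same signatures up to a sign.
-/

open Matrix Module
open scoped ComplexOrder

set_option linter.unusedSectionVars false

namespace Vale.Agent.P011.E6O

open Vale.Agent.P011.D4 Vale.Agent.P011.E6I
open Vale.Agent.P011.RP (RData HasR1)

namespace Dat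

variable {K E : Type} [Field K] [StarRing K] [Field E] [Algebra K E] (S : Dat K E)

theorem rho_ne : S.ρ ≠ 1 := by
  intro h
  obtain ⟨x, hx⟩ := S.ρ1
  exact hx (by rw [h]; rfl)

/-- The reduced norm lies in the centre. -/
theorem exists_det (z : S.D) : ∃ ν : K, (S.f z).det = algebraMap K E ν := by
  have h1 := congrArg Matrix.det (S.f_mem z)
  rw [Matrix.det_mul, Matrix.det_mul] at h1
  have hdet : (u0 E S.lam).det ≠ 0 := by
    rw [Matrix.det_fin_three]
    simp [u0]
  have h2 : ((S.f z).map S.ρ).det = S.ρ (S.f z).det :=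
    ((S.ρ : E →+* E).map_det (S.f z)).symm
  rw [h2, mul_comm] at h1
  obtain ⟨t, ht⟩ := S.fix _ (mul_left_cancel₀ hdet h1).symm
  exact ⟨t, ht.symm⟩

theorem det_dag (z : Matrix (Fin 3) (Fin 3) E) : (S.dag z).det = S.s z.det := by
  have e : S.dag z = Matrix.diagonal (fun i => (((S.G i)⁻¹ : Eˣ) : E)) *
      (z.map S.s)ᵀ * Matrix.diagonal (fun i => ((S.G i : Eˣ) : E)) := by
    ext i j
    rw [Matrix.mul_diagonal, Matrix.diagonal_mul]
    rfl
  rw [e, Matrix.det_mul, Matrix.det_mul, Matrix.det_diagonal, Matrix.det_diagonal,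
    Matrix.det_transpose]
  have h2 : (z.map S.s).det = S.s z.det := ((S.s : E →+* E).map_det z).symm
  have h3 : (∏ i, (((S.G i)⁻¹ : Eˣ) : E)) * (∏ i, ((S.G i : Eˣ) : E)) = 1 := by
    rw [← Finset.prod_mul_distrib]
    exact Finset.prod_eq_one fun i _ => Units.inv_mul _
  rw [h2]
  linear_combination (S.s z.det) * h3

theorem star_det {z : S.D} (hz : star z = z) {ν : K} (hν : (S.f z).det = algebraMap K E ν) :
    star ν = ν := by
  apply (algebraMap K E).injective
  rw [← S.sK, ← hν, ← S.det_dag, ← S.f_star, hz]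

section real

variable {S}

/-- The compatibility of an embedding with the involution of `K` implies the compatibility with
the involution of `E`. -/
theorem s_conj [CharZero K] (w : E →+* ℂ)
    (hw : ∀ x : K, w (algebraMap K E (star x)) = star (w (algebraMap K E x))) (x : E) :
    w (S.s x) = star (w x) := by
  have hfin : FiniteDimensional K E := Module.finite_of_finrank_pos (by rw [S.h3]; norm_num)
  let _ : Algebra K ℂ := (w.comp (algebraMap K E)).toAlgebra
  let w0 : E →ₐ[K] ℂ := { w with commutes' := fun _ => rfl }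
  let w1 : E →ₐ[K] ℂ :=
    { (starRingEnd ℂ).comp (w.comp (S.s : E →+* E)) with
      commutes' := fun x => by
        change star (w (S.s (algebraMap K E x))) = w (algebraMap K E x)
        rw [S.sK, hw, star_star] }
  let e : Fin 3 → (E →ₐ[K] ℂ) := ![w0, w0.comp (S.ρ : E →ₐ[K] E),
    w0.comp ((S.ρ : E →ₐ[K] E).comp (S.ρ : E →ₐ[K] E))]
  have hinj : Function.Injective w := w.injective
  obtain ⟨y, hy⟩ := S.ρ1
  have hy2 : S.ρ (S.ρ y) ≠ y := by
    intro h
    have := congrArg S.ρ h
    rw [S.ρ3] at this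
    exact hy this.symm
  have hy3 : S.ρ (S.ρ y) ≠ S.ρ y := fun h => hy (S.ρ.injective h)
  have he : Function.Injective e := by
    intro i j hij
    have h1 := DFunLike.congr_fun hij y
    fin_cases i <;> fin_cases j
    · rfl
    · exact absurd (hinj h1).symm hy
    · exact absurd (hinj h1).symm hy2
    · exact absurd (hinj h1) hy
    · rfl
    · exact absurd (hinj h1).symm hy3
    · exact absurd (hinj h1) hy2
    · exact absurd (hinj h1) hy3
    · rfl
  have hcard : Fintype.card (E →ₐ[K] ℂ) = 3 := by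
    rw [AlgHom.card, S.h3]
  have hbij : Function.Bijective e := by
    rw [Fintype.bijective_iff_injective_and_card]
    exact ⟨he, by rw [hcard, Fintype.card_fin]⟩
  obtain ⟨i, hi⟩ := hbij.surjective w1
  have h0 : ∀ z, star (w (S.s z)) = w z → w (S.s z) = star (w z) := by
    intro z hz
    rw [← hz, star_star]
  fin_cases i
  · exact h0 x (DFunLike.congr_fun hi x).symm
  · exfalso
    have h1 : ∀ z, w (S.ρ z) = star (w (S.s z)) := fun z => DFunLike.congr_fun hi z
    have h2 : w (S.ρ (S.ρ y)) = star (w (S.s (S.ρ y))) := h1 _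
    rw [S.sρ, h1 (S.s y), S.ss, star_star] at h2
    exact hy2 (hinj h2)
  · exfalso
    have h1 : ∀ z, w (S.ρ (S.ρ z)) = star (w (S.s z)) := fun z => DFunLike.congr_fun hi z
    have h2 : w (S.ρ (S.ρ (S.ρ (S.ρ y)))) = star (w (S.s (S.ρ (S.ρ y)))) := h1 _
    rw [S.ρ3, S.sρ, S.sρ, h1 (S.s y), S.ss, star_star] at h2
    exact hy (hinj h2)

/-- The data of a complex place. -/
noncomputable def rd (S : Dat K E) (w : E →+* ℂ) (hw : ∀ x, w (S.s x) = star (w x)) :
    RData K S.D 3 where
  s := w.comp (algebraMap K E)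
  hs z := by
    change w (algebraMap K E (star z)) = star (w (algebraMap K E z))
    rw [← S.sK, hw]
  f := (w.mapMatrix).comp (S.f : S.D →+* Matrix (Fin 3) (Fin 3) E)
  hf k := by
    change (S.f (algebraMap K S.D k)).map w = _
    rw [AlgHom.commutes]
    ext i j
    rw [Matrix.map_apply, Matrix.algebraMap_matrix_apply, Matrix.scalar_apply,
      Matrix.diagonal_apply]
    split
    · rfl
    · exact map_zero w
  A := Matrix.diagonal fun i => (w (S.G i))⁻¹
  hA := by
    rw [Matrix.diagonal_conjTranspose]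
    congr 1
    funext i
    change star (w (S.G i))⁻¹ = (w (S.G i))⁻¹
    rw [star_inv₀, ← hw, S.sG]
  unit := by
    rw [Matrix.isUnit_iff_isUnit_det, Matrix.det_diagonal, isUnit_iff_ne_zero]
    exact Finset.prod_ne_zero_iff.mpr fun i _ => inv_ne_zero fun h =>
      (S.G i).ne_zero ((map_eq_zero w).mp h)
  star_f x := by
    change (S.f (star x)).map w * _ = _ * ((S.f x).map w)ᴴ
    ext i j
    rw [Matrix.mul_diagonal, Matrix.diagonal_mul, Matrix.map_apply, Matrix.conjTranspose_apply,
      Matrix.map_apply, S.f_star, S.dag_apply, map_mul, map_mul, hw, Units.val_inv_eq_inv_val,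
      map_inv₀]
    have h : w (S.G j) ≠ 0 := fun h => (S.G j).ne_zero ((map_eq_zero w).mp h)
    field_simp

theorem exists_ext (S : Dat K E) (r : K →+* ℂ) : ∃ w : E →+* ℂ, w.comp (algebraMap K E) = r := by
  have hfin : FiniteDimensional K E := Module.finite_of_finrank_pos (by rw [S.h3]; norm_num)
  let _ : Algebra K ℂ := r.toAlgebra
  let w : E →ₐ[K] ℂ := IsAlgClosed.lift
  refine ⟨w, ?_⟩
  ext x
  exact w.commutes x

/-- Hermitian forms of rank one: the elements are similar. -/
theorem similar [NumberField K] (hK : ∃ x : K, star x ≠ x) {g g0 : S.D} (hg : star g = g)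
    (h0 : star g0 = g0) (hg' : g ≠ 0) (h0' : g0 ≠ 0)
    (hsig : ∀ (w : E →+* ℂ) (hw : ∀ x, w (S.s x) = star (w x)), ∃ (ε : ℝ)
      (Q : Matrix (Fin 3) (Fin 3) ℂ), ε ≠ 0 ∧ IsUnit Q ∧
        Q * ((ε : ℂ) • ((S.rd w hw).f g0 * (S.rd w hw).A)) * Qᴴ =
          (S.rd w hw).f g * (S.rd w hw).A) :
    ∃ (μ : K) (δ : S.D), star μ = μ ∧ algebraMap K E μ = (S.f g).det * (S.f g0).det ∧ δ ≠ 0 ∧
      g = μ • (δ * g0 * star δ) ∧
      ∀ (w : E →+* ℂ) (hw : ∀ x, w (S.s x) = star (w x)) (ε : ℝ)
        (Q : Matrix (Fin 3) (Fin 3) ℂ), IsUnit Q →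
        Q * ((ε : ℂ) • ((S.rd w hw).f g0 * (S.rd w hw).A)) * Qᴴ =
          (S.rd w hw).f g * (S.rd w hw).A →
        ∃ r : ℝ, r ≠ 0 ∧ w (algebraMap K E μ) = ε * r ^ 2 := by
  obtain ⟨ν, hν⟩ := S.exists_det g
  obtain ⟨ν0, hν0⟩ := S.exists_det g0
  have sν := S.star_det hg hν
  have sν0 := S.star_det h0 hν0
  have hν1 : ν ≠ 0 := by
    rintro rfl
    exact S.det_ne hg' (by rw [hν, map_zero])
  have hν2 : ν0 ≠ 0 := by
    rintro rfl
    exact S.det_ne h0' (by rw [hν0, map_zero])
  -- the multiplier at the real places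
  have hmul : ∀ (w : E →+* ℂ) (hw : ∀ x, w (S.s x) = star (w x)) (ε : ℝ)
        (Q : Matrix (Fin 3) (Fin 3) ℂ), IsUnit Q →
        Q * ((ε : ℂ) • ((S.rd w hw).f g0 * (S.rd w hw).A)) * Qᴴ =
          (S.rd w hw).f g * (S.rd w hw).A →
        ∃ r : ℝ, r ≠ 0 ∧ w (algebraMap K E (ν * ν0)) = ε * r ^ 2 := by
    intro w hw ε Q hQ h
    have h1 := congrArg Matrix.det h
    rw [Matrix.det_mul, Matrix.det_mul, Matrix.det_smul, Matrix.det_mul, Matrix.det_mul,
      Matrix.det_conjTranspose, Fintype.card_fin] at h1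
    have hA0 : (S.rd w hw).A.det ≠ 0 :=
      ((Matrix.isUnit_iff_isUnit_det _).mp (S.rd w hw).unit).ne_zero
    have hQ0 : Q.det ≠ 0 := ((Matrix.isUnit_iff_isUnit_det _).mp hQ).ne_zero
    have e1 : ((S.rd w hw).f g).det = w (algebraMap K E ν) := by
      rw [← hν]
      exact (w.map_det (S.f g)).symm
    have e2 : ((S.rd w hw).f g0).det = w (algebraMap K E ν0) := by
      rw [← hν0]
      exact (w.map_det (S.f g0)).symm
    rw [e1, e2] at h1
    have hr0 : star (w (algebraMap K E ν0)) = w (algebraMap K E ν0) := by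
      rw [← hw, S.sK, sν0]
    obtain ⟨t, ht⟩ : ∃ t : ℝ, w (algebraMap K E ν0) = t := by
      have := Complex.conj_eq_iff_real.mp hr0
      exact this
    have h2 : w (algebraMap K E ν) = Q.det * star Q.det * (ε : ℂ) ^ 3 * (t : ℂ) := by
      apply mul_right_cancel₀ hA0
      rw [← h1, ht]
      ring
    have hν0w : (t : ℂ) ≠ 0 := by
      rw [← ht]
      exact fun h => hν2 ((map_eq_zero _).mp ((map_eq_zero w).mp h))
    have hε : ε ≠ 0 := by
      rintro rfl
      have : w (algebraMap K E ν) = 0 := by rw [h2]; simp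
      exact hν1 ((map_eq_zero _).mp ((map_eq_zero w).mp this))
    refine ⟨‖Q.det‖ * ε * t, ?_, ?_⟩
    · have := norm_pos_iff.mpr hQ0
      have ht0 : t ≠ 0 := by exact_mod_cast hν0w
      exact mul_ne_zero (mul_ne_zero this.ne' hε) ht0
    · have h3 : Q.det * star Q.det = ((‖Q.det‖ ^ 2 : ℝ) : ℂ) := by
        rw [Complex.star_def, Complex.mul_conj', Complex.ofReal_pow]
      rw [map_mul, map_mul, h2, ht, h3]
      push_cast
      ring
  have hR1 : HasR1 K S.D 3 := Even.hasR1 hK (by norm_num) S.finrank_D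
  have hμ0 : ν * ν0 ≠ 0 := mul_ne_zero hν1 hν2
  have hsμ : star (ν * ν0) = ν * ν0 := by rw [star_mul', sν, sν0]
  obtain ⟨δ, hδ, he⟩ := hR1 E S.f ((ν * ν0) • g0) g
    (by rw [star_smul, hsμ, h0]) hg (smul_ne_zero hμ0 h0') hg'
    ⟨ν⁻¹ * (ν0⁻¹) ^ 2, mul_ne_zero (inv_ne_zero hν1) (pow_ne_zero _ (inv_ne_zero hν2)), by
      have e : S.f ((ν * ν0) • g0) = algebraMap K E (ν * ν0) • S.f g0 := by
        rw [map_smul]
        ext i j
        rw [Matrix.smul_apply, Matrix.smul_apply, Algebra.smul_def, smul_eq_mul]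
      rw [e, Matrix.det_smul, Fintype.card_fin, hν, hν0, star_mul', star_inv₀, star_pow,
        star_inv₀, sν, sν0, ← map_pow, ← map_mul, ← map_mul]
      congr 1
      field_simp⟩
    (by
      intro R
      obtain ⟨w, hwR⟩ := exists_ext S R.s
      have hwK : ∀ x : K, w (algebraMap K E (star x)) = star (w (algebraMap K E x)) := by
        intro x
        have h1 : ∀ y, w (algebraMap K E y) = R.s y := fun y => DFunLike.congr_fun hwR y
        rw [h1, h1, R.hs]
      have hw : ∀ x, w (S.s x) = star (w x) := s_conj w hwK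
      refine RData.CongAt.of_eq (R := S.rd w hw) (by norm_num) S.finrank_D hwR ?_
      obtain ⟨ε, Q, hε, hQ, h⟩ := hsig w hw
      obtain ⟨r, hr, hrw⟩ := hmul w hw ε Q hQ h
      have hr' : (r : ℂ) ≠ 0 := by exact_mod_cast hr
      refine ⟨((r : ℂ)⁻¹) • Q, ?_, ?_⟩
      · obtain ⟨u, hu⟩ := hQ
        rw [← hu]
        exact (Units.mk0 _ (inv_ne_zero hr') • u).isUnit
      · have e : (S.rd w hw).f ((ν * ν0) • g0) = w (algebraMap K E (ν * ν0)) •
            (S.rd w hw).f g0 := by
          rw [Algebra.smul_def, map_mul, (S.rd w hw).hf, Matrix.scalar_apply,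
            ← Matrix.smul_eq_diagonal_mul]
          rfl
        rw [e, hrw, Matrix.conjTranspose_smul, ← h]
        simp only [Matrix.smul_mul, Matrix.mul_smul, smul_smul]
        congr 1
        rw [star_inv₀, Complex.star_def, Complex.conj_ofReal]
        field_simp)
  refine ⟨ν * ν0, δ, hsμ, by rw [map_mul, hν, hν0], hδ, ?_, hmul⟩
  rw [he, mul_smul_comm, smul_mul_assoc]

end real

end Dat

end Vale.Agent.P011.E6O
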