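import Vale.Agent.P011.E6O.Defs2

/-!
Block E6O: literal statements of the rows.
-/

open NumberField

namespace Vale.Agent.P011.E6O.Spec

open Vale.Agent.P011.MPQ Vale.Agent.P011.D4 Vale.Agent.P011.D4.Oct Vale.Agent.P011.E6
open Vale.Agent.P011.E6I (MQ toMQ)
open Vale.Agent.P011.E6O

variable {k E : Type} [Field k] [NumberField k] [Field E] [NumberField E] [Algebra k E]
  {ρ σ : E ≃ₐ[k] E} {lam : Eˣ} {g : Fin 3 → Eˣ} {al s : E} {a b c : kˣ}
  (H : Hyp ρ σ lam g al s a b c)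

include H

/-! BAS (24). -/

theorem ph_act {m : (MQ E a b)ˣ} (hm : InD ρ lam (m : MQ E a b)) (κ : Qt a b)
    (x : AlbL E a b c) :
    ph ρ lam (Alb.act m (qup E κ) x) = Alb.act m (qup E κ) (ph ρ lam x) := sorry

theorem exists_act {m : (MQ E a b)ˣ} (hm : InD ρ lam (m : MQ E a b))
    (hu : IsUn σ g 1 (m : MQ E a b)) (hn : nu (m : MQ E a b) = 1) :
    ∃ φ ∈ GO ρ σ lam g a b c, ∀ x, φ x = Alb.act m 1 x := sorry

/-! RES (69). -/

theorem index_top (h : Res ρ σ lam g a b c = GO ρ σ lam g a b c)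
    (N : Subgroup (GO ρ σ lam g a b c)) (hN : N.index ≠ 0) : N = ⊤ := sorry

theorem aut_Res (f : AutC a b c) {φ : AlbL E a b c ≃ₗ[E] AlbL E a b c}
    (hφ : ∀ x : Alb a b c, φ (aup E x) = aup E (Alb.omapA f.1 x)) :
    φ ∈ Res ρ σ lam g a b c := sorry

/-- The hypotheses do not depend on the coordinates. -/
theorem Hyp.trip {b' c' : kˣ} {j l : Oct a b c} (ht : Trip a b' c' gi j l) :
    Hyp ρ σ lam g al s a b' c' := sorry

theorem trip_Res {b' c' : kˣ} {j l : Oct a b c} (ht : Trip a b' c' gi j l)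
    {Ψ : AlbL E a b' c' ≃ₗ[E] AlbL E a b c}
    (hΨ : ∀ x, Ψ x = Alb.omapA (emb (oup E gi) (oup E j) (oup E l)) x)
    {φ : AlbL E a b' c' ≃ₗ[E] AlbL E a b' c'} :
    (φ ∈ GO ρ σ lam g a b' c' ↔ (Ψ.symm.trans φ).trans Ψ ∈ GO ρ σ lam g a b c) ∧
      (φ ∈ Res ρ σ lam g a b' c' ↔ (Ψ.symm.trans φ).trans Ψ ∈ Res ρ σ lam g a b c) := sorry

/-- Every `w` is the third element of a basic triple with first element `i`. -/
theorem exists_trip {w : Oct a b c} (hw : Perp w) :
    ∃ (b' c' : kˣ) (j : Oct a b c), Trip a b' c' gi j w := sorry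

/-! S3a (68). -/

theorem su_Res {m : (MQ E a b)ˣ} (hm : InD ρ lam (m : MQ E a b))
    (hu : IsUn σ g 1 (m : MQ E a b)) (hn : nu (m : MQ E a b) = 1)
    {φ : AlbL E a b c ≃ₗ[E] AlbL E a b c} (hφ : ∀ x, φ x = Alb.act m 1 x) :
    φ ∈ Res ρ σ lam g a b c := sorry

/-! T (675): every point of the line `I` is moved to a standard point by an element of `Res`. -/

theorem T {A : Submodule E (AlbL E a b c)} (hA : IsPt ρ lam A) (hI : A ≤ Iln c (ep al)) :
    ∃ n ∈ Res ρ σ lam g a b c, ∃ w : Oct a b c, Perp w ∧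
      A.map (n : AlbL E a b c →ₗ[E] AlbL E a b c) = Pw al w := sorry

/-- T- (370). -/
theorem Tm {A : Submodule E (AlbL E a b c)} (hA : IsPt ρ lam A) (hI : A ≤ Iln c (em al)) :
    ∃ n ∈ Res ρ σ lam g a b c, ∃ w : Oct a b c, Perp w ∧
      A.map (n : AlbL E a b c →ₗ[E] AlbL E a b c) = Pm al w := sorry

/-- The matched pairs (675): every unitary element of `D` is the first component of a diagonal
element of `SU₂`. -/
theorem matched {z : Matrix (Fin 3) (Fin 3) E} (hz : InD0 ρ lam z)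
    (hu : (z.map σ).transpose * Matrix.diagonal (fun i => (g i : E)) * z =
      Matrix.diagonal (fun i => (g i : E))) :
    ∃ (z' : Matrix (Fin 3) (Fin 3) E) (m : (MQ E a b)ˣ), InD0 ρ lam z' ∧
      (z'.map σ).transpose * Matrix.diagonal (fun i => (g i : E)) * z' =
        Matrix.diagonal (fun i => (g i : E)) ∧ z.det * z'.det = 1 ∧
      (m : MQ E a b) = (toMQ z * Matrix.diagonal (fun _ => ep al) +
        toMQ z' * Matrix.diagonal (fun _ => em al)) ∧
      InD ρ lam (m : MQ E a b) ∧ IsUn σ g 1 (m : MQ E a b) ∧ nu (m : MQ E a b) = 1 := sorry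

/-! SLIDE (493): rows A, B1, B2, C and their assembly. -/

theorem slide {h : AlbL E a b c ≃ₗ[E] AlbL E a b c} (hh : h ∈ GO ρ σ lam g a b c) :
    ∃ n ∈ Res ρ σ lam g a b c, ∃ w : Oct a b c, Perp w ∧
      (Pw al (gl : Oct a b c)).map ((n * h : AlbL E a b c ≃ₗ[E] AlbL E a b c) :
        AlbL E a b c →ₗ[E] AlbL E a b c) = Pw al w := sorry

/-! END1 (408), END2 (637). -/

/-- The classes: `n(w)` and `n(l)` differ by a norm, and an automorphism carries `w` to `l`. -/
theorem end1 {h : AlbL E a b c ≃ₗ[E] AlbL E a b c} (hh : h ∈ GO ρ σ lam g a b c)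
    {w : Oct a b c} (hw : Perp w)
    (hA : (Pw al (gl : Oct a b c)).map (h : AlbL E a b c →ₗ[E] AlbL E a b c) = Pw al w) :
    ∃ n ∈ Res ρ σ lam g a b c,
      (Pw al (gl : Oct a b c)).map ((n * h : AlbL E a b c ≃ₗ[E] AlbL E a b c) :
        AlbL E a b c →ₗ[E] AlbL E a b c) = Pw al gl := sorry

/-- The stabiliser of the standard point. -/
theorem end2 {h : AlbL E a b c ≃ₗ[E] AlbL E a b c} (hh : h ∈ GO ρ σ lam g a b c)
    (hA : (Pw al (gl : Oct a b c)).map (h : AlbL E a b c →ₗ[E] AlbL E a b c) = Pw al gl) :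
    h ∈ Res ρ σ lam g a b c := sorry

/-- The elements which are the identity on the two standard points. -/
theorem end3 {h : AlbL E a b c ≃ₗ[E] AlbL E a b c} (hh : h ∈ GO ρ σ lam g a b c)
    (hA : ∀ x ∈ Pw al (gl : Oct a b c), h x = x) (hA' : ∀ x ∈ Pm al (gl : Oct a b c), h x = x) :
    ∃ f : AutC a b c, ∀ x : Alb a b c, h (aup E x) = aup E (Alb.omapA f.1 x) := sorry

/-! Assembly. -/

theorem res_top : Res ρ σ lam g a b c = GO ρ σ lam g a b c := sorry

/-- Every subgroup of finite index is the whole group. -/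
theorem e6o_index (N : Subgroup (GO ρ σ lam g a b c)) (hN : N.index ≠ 0) : N = ⊤ := sorry

end Vale.Agent.P011.E6O.Spec
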