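import Vale.Agent.P011.E6O.H493.Slide
import Vale.Agent.P011.E6O.H637.End1
import Vale.Agent.P011.E6O.H408.End2

/-!
Block E6O: assembly.
-/

open NumberField

namespace Vale.Agent.P011.E6O

open Vale.Agent.P011.MPQ Vale.Agent.P011.D4 Vale.Agent.P011.D4.Oct Vale.Agent.P011.E6
open Vale.Agent.P011.E6I (MQ toMQ)

variable {k E : Type} [Field k] [NumberField k] [Field E] [NumberField E] [Algebra k E]
  {ρ σ : E ≃ₐ[k] E} {lam : Eˣ} {g : Fin 3 → Eˣ} {al s : E} {a b c : kˣ}

omit [NumberField k] [NumberField E] in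
theorem res_le_GO : Res ρ σ lam g a b c ≤ GO ρ σ lam g a b c := by
  rintro _ ⟨x, -, rfl⟩
  exact x.2

/-- The group is its finite residual. -/
theorem res_top (H : Hyp ρ σ lam g al s a b c) :
    Res ρ σ lam g a b c = GO ρ σ lam g a b c := by
  refine le_antisymm res_le_GO fun h hh => ?_
  obtain ⟨n, hn, w, hw, h1⟩ := slide H hh
  have h2 : n * h ∈ GO ρ σ lam g a b c := mul_mem (res_le_GO hn) hh
  obtain ⟨n', hn', h3⟩ := end1 H h2 hw h1
  have h4 : n' * (n * h) ∈ GO ρ σ lam g a b c := mul_mem (res_le_GO hn') h2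
  have h5 := end2 H h4 h3
  have h6 : h = n⁻¹ * (n'⁻¹ * (n' * (n * h))) := by group
  rw [h6]
  exact mul_mem (InvMemClass.inv_mem hn) (mul_mem (InvMemClass.inv_mem hn') h5)

/-- Every subgroup of finite index is the whole group. -/
theorem e6o_index (H : Hyp ρ σ lam g al s a b c) (N : Subgroup (GO ρ σ lam g a b c))
    (hN : N.index ≠ 0) : N = ⊤ := by
  rw [eq_top_iff]
  rintro ⟨x, hx⟩ -
  have h1 : x ∈ Res ρ σ lam g a b c := by
    rw [res_top H]
    exact hx
  obtain ⟨y, hy, hyx⟩ := h1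
  have h2 : y = ⟨x, hx⟩ := Subtype.ext hyx
  rw [← h2]
  exact Subgroup.mem_sInf.mp hy N hN

end Vale.Agent.P011.E6O
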