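import Vale.Agent.P011.E6O.Land1
import Vale.Agent.P011.E6O.H553.Line
import Vale.Agent.P011.D4.NTS

/-!
The special unitary group of the form `⟨1, -b⟩` over a cyclic algebra of degree three moves every
line to a line defined over the centre.
-/

open Matrix Module NumberField
open scoped ComplexOrder

set_option linter.unusedSectionVars false

namespace Vale.Agent.P011.E6O

open Vale.Agent.P011S Vale.Agent.P011.Arith Vale.Agent.P011.Even Vale.Agent.P011.Two
open Vale.Agent.P011.Two.Hi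

section gen

variable {K D Ω : Type} [Field K] [NumberField K] [StarRing K] [DivisionRing D] [StarRing D]
  [Algebra K D] [StarModule K D] [FiniteDimensional K D] [Algebra.IsCentral K D] [Field Ω]
  [Algebra K Ω] {n : ℕ} (f : D →ₐ[K] Matrix (Fin n) (Fin n) Ω)

/-- The matrix of the form. -/
def Hb (K D : Type) [Field K] [DivisionRing D] [Algebra K D] (b : K) :
    Matrix (Fin 2) (Fin 2) D :=
  Matrix.diagonal ![1, -algebraMap K D b]

/-- The matrices `m` with `m * H * mᴴ = H` and of reduced norm one. -/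
structure IsSU2 (b : K) (m : Matrix (Fin 2) (Fin 2) D) : Prop where
  isom : m * Hb K D b * mᴴ = Hb K D b
  nrm : redNorm f (Fin 2) m = 1

omit [NumberField K] [FiniteDimensional K D] [Algebra.IsCentral K D] in
theorem hh_b (b : K) (x : D × D) :
    hh (-algebraMap K D b) x x = x.1 * star x.1 - b • (x.2 * star x.2) := by
  rw [hh, Algebra.smul_def, mul_neg, neg_mul, ← sub_eq_add_neg, ← Algebra.commutes b x.2, mul_assoc]

/-- The line of a unit vector. -/
theorem exists_line_u (hK : ∃ t : K, star t ≠ t) (hn : 2 ≤ n) (hdeg : finrank K D = n ^ 2)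
    {g : D} (hg : star g = g) (han : An g) {y : D × D} (h1 : hh g y y = 1) :
    ∃ u ∈ SUh f g, ∃ δ : D, δ ≠ 0 ∧ u e₁ = δ • y := by
  obtain ⟨k0, hk0⟩ := hK
  have hθ0 : k0 - star k0 ≠ 0 := sub_ne_zero.mpr (Ne.symm hk0)
  have hθ : star (k0 - star k0) = -(k0 - star k0) := by rw [star_sub, star_star, neg_sub]
  let _ := algFK (K := K) (D := D)
  have _ : IsScalarTower (FK K) K D := IsScalarTower.of_algebraMap_eq fun _ => rfl
  have hS : Setting (FK K) K D (sqU hθ0 hθ) (k0 - star k0) := setting hθ0 hθ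
  exact transitive hS hn hdeg hg han one_pos
    (N := SUh f g) (fun v hv z hz => SUh_conj f hv hz) (hq_SUh f hS hg han 1) y h1

/-- The matched pairs. -/
theorem exists_matched (hK : ∃ t : K, star t ≠ t) (hn : 2 ≤ n) (hdeg : finrank K D = n ^ 2)
    {g : D} (hg : star g = g) (han : An g) {t : D} (ht : t * star t = 1) :
    ∃ t' : D, ∃ u ∈ SUh f g, IsDiag t t' u := by
  obtain ⟨k0, hk0⟩ := hK
  have hθ0 : k0 - star k0 ≠ 0 := sub_ne_zero.mpr (Ne.symm hk0)
  have hθ : star (k0 - star k0) = -(k0 - star k0) := by rw [star_sub, star_star, neg_sub]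
  let _ := algFK (K := K) (D := D)
  have _ : IsScalarTower (FK K) K D := IsScalarTower.of_algebraMap_eq fun _ => rfl
  have hS : Setting (FK K) K D (sqU hθ0 hθ) (k0 - star k0) := setting hθ0 hθ
  exact matched hS hn hdeg hg han one_pos (hq_SUh f hS hg han 1) t ht

theorem star_algb {b : K} (hb : star b = b) : star (-algebraMap K D b) = -algebraMap K D b := by
  rw [star_neg, star_algD, hb]

/-- The matched pairs of the form `⟨1, -b⟩`. -/
theorem exists_matched_b (hK : ∃ t : K, star t ≠ t) (hn : 2 ≤ n) (hdeg : finrank K D = n ^ 2)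
    {b : K} (hb : star b = b)
    (han : ∀ x y : D, x * star x - b • (y * star y) = 0 → x = 0 ∧ y = 0)
    {t : D} (ht : t * star t = 1) :
    ∃ t' : D, IsSU2 f b (Matrix.diagonal ![t, t']) := by
  obtain ⟨t', u, hu, h1, h2⟩ := exists_matched f hK hn hdeg (star_algb (D := D) hb)
    (fun x hx => Prod.ext_iff.mpr (han x.1 x.2 (by rw [← hh_b, hx]))) ht
  have e : m2 u = Matrix.diagonal ![t, t'] := by
    rw [m2, h1, h2]
    ext i j
    fin_cases i <;> fin_cases j <;> rfl
  refine ⟨t', ?_, ?_⟩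
  · rw [← e]
    exact m2_isom hu.1
  · rw [← e]
    exact hu.2

/-- The product of a row and a matrix. -/
def rv (z : D × D) (m : Matrix (Fin 2) (Fin 2) D) : D × D :=
  (z.1 * m 0 0 + z.2 * m 1 0, z.1 * m 0 1 + z.2 * m 1 1)

omit [StarRing D] [Algebra K D] [StarModule K D] [FiniteDimensional K D]
  [Algebra.IsCentral K D] in
theorem rv_mul (z : D × D) (m m' : Matrix (Fin 2) (Fin 2) D) :
    rv z (m * m') = rv (rv z m) m' := by
  simp only [rv, Matrix.mul_apply, Fin.sum_univ_two, mul_add, add_mul, mul_assoc]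
  ext
  · simp only [add_assoc, add_left_comm]
  · simp only [add_assoc, add_left_comm]

/-- The matrix of a quaternion. -/
def Mk (b κ₁ κ₂ : K) : Matrix (Fin 2) (Fin 2) K := !![κ₁, κ₂; b * star κ₂, star κ₁]

theorem exists_move (hK : ∃ t : K, star t ≠ t) (hn : 2 ≤ n) (hdeg : finrank K D = n ^ 2)
    {b : K} (hb : star b = b)
    (han : ∀ x y : D, x * star x - b • (y * star y) = 0 → x = 0 ∧ y = 0)
    {κ₁ κ₂ μ : K} (hμ0 : μ ≠ 0) (hκ : κ₁ * star κ₁ - b * (κ₂ * star κ₂) = μ)
    {z₁ z₂ δ : D} (hδ : δ ≠ 0)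
    (hz : z₁ * star z₁ - b • (z₂ * star z₂) = μ • (δ * star δ)) :
    ∃ (m : Matrix (Fin 2) (Fin 2) D) (δ' : D), IsSU2 f b m ∧ δ' ≠ 0 ∧
      rv (z₁, z₂) m = (κ₁ • δ', κ₂ • δ') := by
  have hμ : star μ = μ := by
    rw [← hκ, star_sub, star_mul', star_mul', star_mul', star_star, star_star, hb]
    ring
  have hδs : star δ ≠ 0 := star_ne_zero.mpr hδ
  -- the coordinates in the basis of the quaternion
  obtain ⟨x₁, hx₁⟩ : ∃ x : D, x = μ⁻¹ • (star κ₁ • z₁ - (b * star κ₂) • z₂) := ⟨_, rfl⟩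
  obtain ⟨x₂, hx₂⟩ : ∃ x : D, x = μ⁻¹ • (κ₁ • z₂ - κ₂ • z₁) := ⟨_, rfl⟩
  have hx : x₁ * star x₁ - b • (x₂ * star x₂) = δ * star δ := by
    have h1 : x₁ * star x₁ - b • (x₂ * star x₂) =
        (μ⁻¹ * μ⁻¹ * (κ₁ * star κ₁ - b * (κ₂ * star κ₂))) • (z₁ * star z₁ - b • (z₂ * star z₂)) := by
      rw [hx₁, hx₂]
      simp only [star_smul, star_sub, star_star, star_inv₀, hμ, star_mul', hb, sub_mul, mul_sub,
        smul_mul_assoc, mul_smul_comm, smul_smul, smul_sub]
      match_scalars <;> ring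
    rw [h1, hκ, hz, smul_smul]
    rw [show μ⁻¹ * μ⁻¹ * μ * μ = 1 by field_simp, one_smul]
  -- the unit vector
  have hy : hh (-algebraMap K D b) (δ⁻¹ • (x₁, x₂)) (δ⁻¹ • (x₁, x₂)) = 1 := by
    rw [hh_b]
    have h1 : (δ⁻¹ • (x₁, x₂) : D × D).1 * star (δ⁻¹ • (x₁, x₂) : D × D).1 -
        b • ((δ⁻¹ • (x₁, x₂) : D × D).2 * star (δ⁻¹ • (x₁, x₂) : D × D).2) =
        δ⁻¹ * (x₁ * star x₁ - b • (x₂ * star x₂)) * (star δ)⁻¹ := by
      simp only [Prod.smul_mk, smul_eq_mul, star_mul, star_inv₀, mul_sub, sub_mul,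
        mul_smul_comm, smul_mul_assoc, mul_assoc]
    rw [h1, hx, ← mul_assoc, inv_mul_cancel₀ hδ, one_mul, mul_inv_cancel₀ hδs]
  obtain ⟨u, hu, δ₁, hδ₁, hue⟩ := exists_line_u f hK hn hdeg (star_algb (D := D) hb)
    (fun x hx => Prod.ext_iff.mpr (han x.1 x.2 (by rw [← hh_b, hx]))) hy
  have hui : u⁻¹ ∈ SUh f (-algebraMap K D b) := Subgroup.inv_mem _ hu
  have hxu : u⁻¹ (x₁, x₂) = (δ * δ₁⁻¹) • e₁ := by
    apply u.injective
    rw [map_smul, hue, smul_smul, smul_smul, mul_assoc, mul_assoc, inv_mul_cancel_left₀ hδ₁,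
      mul_inv_cancel₀ hδ, one_smul]
    exact u.apply_symm_apply _
  -- the matrix
  obtain ⟨M, hM⟩ : ∃ M : Matrix (Fin 2) (Fin 2) K, M = Mk b κ₁ κ₂ := ⟨_, rfl⟩
  obtain ⟨M', hM'⟩ : ∃ M : Matrix (Fin 2) (Fin 2) K,
      M = μ⁻¹ • !![star κ₁, -κ₂; -(b * star κ₂), κ₁] := ⟨_, rfl⟩
  obtain ⟨a, ha⟩ : ∃ a : Matrix (Fin 2) (Fin 2) K →+* Matrix (Fin 2) (Fin 2) D,
    a = (algebraMap K D).mapMatrix := ⟨_, rfl⟩
  have haH : ∀ X, (a X)ᴴ = a Xᴴ := by
    intro X
    rw [ha]
    ext i j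
    change star (algebraMap K D (X j i)) = algebraMap K D (star (X j i))
    exact star_algD _
  have hMM : M * M' = 1 := by
    rw [hM, hM', Mk]
    ext i j
    fin_cases i <;> fin_cases j <;>
      simp [Matrix.mul_apply, Fin.sum_univ_two] <;> field_simp
    · linear_combination hκ
    · ring
    · ring
    · linear_combination hκ
  have hM'M : M' * M = 1 := mul_eq_one_comm.mp hMM
  obtain ⟨Hk, hHk⟩ : ∃ H : Matrix (Fin 2) (Fin 2) K, H = Matrix.diagonal ![1, -b] := ⟨_, rfl⟩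
  have haHk : a Hk = Hb K D b := by
    rw [ha, hHk, Hb]
    ext i j
    fin_cases i <;> fin_cases j <;> simp
  have hMH : M * Hk * Mᴴ = μ • Hk := by
    rw [hM, hHk, Mk]
    ext i j
    rw [Matrix.mul_apply, Fin.sum_univ_two, Matrix.mul_diagonal, Matrix.mul_diagonal,
      Matrix.conjTranspose_apply, Matrix.conjTranspose_apply]
    fin_cases i <;> fin_cases j <;> simp [hb]
    · linear_combination hκ
    · ring
    · ring
    · linear_combination (-b) * hκ
  have hMH' : M' * Hk * M'ᴴ = μ⁻¹ • Hk := by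
    have h1 : M' * (μ • Hk) * M'ᴴ = Hk := by
      rw [← hMH]
      have h2 : Mᴴ * M'ᴴ = 1 := by
        rw [← Matrix.conjTranspose_mul, hM'M, Matrix.conjTranspose_one]
      calc M' * (M * Hk * Mᴴ) * M'ᴴ = (M' * M) * Hk * (Mᴴ * M'ᴴ) := by
            simp only [mul_assoc]
        _ = Hk := by rw [hM'M, h2, one_mul, mul_one]
    rw [Matrix.mul_smul, Matrix.smul_mul] at h1
    rw [eq_inv_smul_iff₀ hμ0]
    exact h1
  have haS : ∀ (c : K) X, a (c • X) = c • a X := by
    intro c X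
    rw [ha]
    ext i j
    change algebraMap K D (c * X i j) = c • algebraMap K D (X i j)
    rw [map_mul, Algebra.smul_def]
  have hW := m2_isom hui.1
  obtain ⟨W, hWd⟩ : ∃ W : Matrix (Fin 2) (Fin 2) D, W = m2 u⁻¹ := ⟨_, rfl⟩
  rw [← hWd] at hW
  change W * Hb K D b * Wᴴ = Hb K D b at hW
  have hrow : ∀ (v : D × D), rv v W = u⁻¹ v := by
    intro v
    rw [hWd]
    exact (u_apply u⁻¹ v).symm
  have haij : ∀ (X : Matrix (Fin 2) (Fin 2) K) i j, (a X) i j = algebraMap K D (X i j) := by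
    intro X i j
    rw [ha]
    rfl
  have hx' : rv (z₁, z₂) (a M') = (x₁, x₂) := by
    rw [rv, haij, haij, haij, haij, hM', hx₁, hx₂]
    simp only [← Algebra.commutes, ← Algebra.smul_def]
    simp
    constructor <;> module
  refine ⟨a M' * W * a M, δ * δ₁⁻¹, ⟨?_, ?_⟩, mul_ne_zero hδ (inv_ne_zero hδ₁), ?_⟩
  · rw [Matrix.conjTranspose_mul, Matrix.conjTranspose_mul, haH, haH]
    calc a M' * W * a M * Hb K D b * (a Mᴴ * (Wᴴ * a M'ᴴ))
        = a M' * W * (a M * Hb K D b * a Mᴴ) * (Wᴴ * a M'ᴴ) := by simp only [mul_assoc]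
      _ = μ • (a M' * (W * Hb K D b * Wᴴ) * a M'ᴴ) := by
          rw [← haHk, ← map_mul, ← map_mul, hMH, haS, Matrix.mul_smul, Matrix.smul_mul]
          simp only [mul_assoc]
      _ = Hb K D b := by
          rw [hW, ← haHk, ← map_mul, ← map_mul, hMH', haS, smul_smul, mul_inv_cancel₀ hμ0,
            one_smul]
  · rw [map_mul, map_mul, hWd, hui.2, mul_one, ← map_mul, ← map_mul, hM'M, map_one, map_one]
  · rw [rv_mul, rv_mul, hx', hrow, hxu]
    simp only [rv, haij, e₁, Prod.smul_mk, smul_eq_mul, mul_one, mul_zero, zero_mul, add_zero]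
    simp only [← Algebra.commutes, ← Algebra.smul_def, hM, Mk]
    simp

/-- The representation of the elements by a binary hermitian form over the centre. -/
theorem exists_kappa (hK : ∃ t : K, star t ≠ t) {b μ : K} (hb : star b = b) (hb0 : b ≠ 0)
    (hμ : star μ = μ) (hμ0 : μ ≠ 0)
    (hpos : ∀ r : K →+* ℂ, (∀ x, r (star x) = star (r x)) → (r b).re < 0 → 0 < (r μ).re) :
    ∃ κ₁ κ₂ : K, κ₁ * star κ₁ - b * (κ₂ * star κ₂) = μ := by
  obtain ⟨k0, hk0⟩ := hK
  have hθ0 : k0 - star k0 ≠ 0 := sub_ne_zero.mpr (Ne.symm hk0)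
  have hθ : star (k0 - star k0) = -(k0 - star k0) := by rw [star_sub, star_star, neg_sub]
  obtain ⟨b0, hb0'⟩ : ∃ b0 : (FK K)ˣ, algebraMap (FK K) K b0 = b := by
    obtain ⟨b1, hb1⟩ := (mem_fix b).mp hb
    exact ⟨Units.mk0 b1 fun h => hb0 (by rw [← hb1, h, map_zero]), hb1⟩
  obtain ⟨μ1, hμ1⟩ : ∃ b0 : (FK K)ˣ, algebraMap (FK K) K b0 = μ := by
    obtain ⟨b1, hb1⟩ := (mem_fix μ).mp hμ
    exact ⟨Units.mk0 b1 fun h => hμ0 (by rw [← hb1, h, map_zero]), hb1⟩
  obtain ⟨q, hq⟩ := Vale.Agent.P011.D4.exists_nrd (a := sqU hθ0 hθ) (b := b0) μ1 (by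
    intro φ h1 h2
    have h1' : φ (sqK hθ) < 0 := h1
    have he : ∀ x : FK K, RP.emb hθ0 hθ φ h1' (algebraMap (FK K) K x) = (φ x : ℂ) := by
      intro x
      have := RP.emb_mk hθ0 hθ φ h1' x 0
      rw [map_zero, zero_mul, add_zero, map_zero, Complex.ofReal_zero, zero_mul, add_zero] at this
      exact this
    have h3 := hpos (RP.emb hθ0 hθ φ h1') (RP.emb_star hθ0 hθ φ h1') (by
      rw [← hb0', he, Complex.ofReal_re]
      exact h2)
    rw [← hμ1, he, Complex.ofReal_re] at h3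
    exact h3)
  refine ⟨algebraMap (FK K) K q.re + algebraMap (FK K) K q.imI * (k0 - star k0),
    algebraMap (FK K) K q.imJ + algebraMap (FK K) K q.imK * (k0 - star k0), ?_⟩
  have hsq : algebraMap (FK K) K (sqU hθ0 hθ : FK K) = (k0 - star k0) * (k0 - star k0) :=
    coe_sqK hθ
  rw [← hμ1, ← hq, ← hb0']
  simp only [Vale.Agent.P011.MPQ.nrd, map_sub, map_add, map_mul, map_pow, star_add, star_mul',
    star_fixK, hθ, hsq]
  ring

end gen

section dat

variable {K E : Type} [Field K] [StarRing K] [Field E] [Algebra K E] (S : Dat K E)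

open Vale.Agent.P011.RP (RData)

theorem f_star_det (x : S.D) : (S.f (star x)).det = S.s (S.f x).det := by
  rw [S.f_star, S.det_dag]

/-- The form is anisotropic. -/
theorem aniso_b {b : K} (hb : star b = b) (hbn : ∀ x : K, x * star x ≠ b) (x y : S.D)
    (h : x * star x - b • (y * star y) = 0) : x = 0 ∧ y = 0 := by
  have hb0 : b ≠ 0 := fun h0 => hbn 0 (by rw [zero_mul, h0])
  by_cases hy : y = 0
  · subst hy
    rw [zero_mul, smul_zero, sub_zero] at h
    rcases mul_eq_zero.mp h with h | h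
    · exact ⟨h, rfl⟩
    · exact ⟨star_eq_zero.mp h, rfl⟩
  · exfalso
    obtain ⟨ν, hν⟩ := S.exists_det x
    obtain ⟨ν', hν'⟩ := S.exists_det y
    have hν0 : ν' ≠ 0 := by
      rintro rfl
      exact S.det_ne hy (by rw [hν', map_zero])
    have h1 := congrArg (fun z => (S.f z).det) (sub_eq_zero.mp h)
    have e : S.f (b • (y * star y)) = algebraMap K E b • (S.f y * S.f (star y)) := by
      rw [map_smul, map_mul]
      ext i j
      rw [Matrix.smul_apply, Matrix.smul_apply, Algebra.smul_def, smul_eq_mul]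
    simp only [e, map_mul, Matrix.det_mul, Matrix.det_smul, Fintype.card_fin, f_star_det, hν, hν',
      S.sK] at h1
    have h2 : ν * star ν = b ^ 3 * (ν' * star ν') := by
      apply (algebraMap K E).injective
      simpa using h1
    refine hbn (ν / (b * ν')) ?_
    have hsν0 : star ν' ≠ 0 := star_ne_zero.mpr hν0
    rw [star_div₀, star_mul', hb, div_mul_div_comm, h2]
    field_simp

/-- The data with the opposite hermitian form. -/
def negR {K D : Type} [Field K] [StarRing K] [DivisionRing D] [StarRing D] [Algebra K D] {n : ℕ}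
    (R : RData K D n) : RData K D n :=
  { R with
    A := -R.A
    hA := by rw [Matrix.conjTranspose_neg, R.hA]
    unit := R.unit.neg
    star_f := fun x => by rw [Matrix.mul_neg, Matrix.neg_mul, R.star_f] }

theorem pos_b {K D : Type} [Field K] [NumberField K] [StarRing K] [DivisionRing D] [StarRing D]
    [Algebra K D] [StarModule K D] [FiniteDimensional K D] [Algebra.IsCentral K D]
    {n : ℕ} {R : RData K D n} (hA : R.A.PosDef) {b : K} (hb : star b = b) (hbR : (R.s b).re < 0)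
    {x y : D} (hxy : x ≠ 0 ∨ y ≠ 0) :
    (R.f (x * star x - b • (y * star y)) * R.A).PosDef := by
  have hr : R.s b = ((R.s b).re : ℂ) := by
    have h1 := R.hs b
    rw [hb] at h1
    exact (Complex.conj_eq_iff_re.mp h1.symm).symm
  have hsc : ∀ z : D, R.f (b • z) = ((R.s b).re : ℂ) • R.f z := by
    intro z
    rw [Algebra.smul_def, map_mul, R.hf, Matrix.scalar_apply, ← Matrix.smul_eq_diagonal_mul, ← hr]
  have e : R.f (x * star x - b • (y * star y)) * R.A =
      R.f (x * star x) * R.A + (-(R.s b).re) • (R.f (y * star y) * R.A) := by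
    rw [map_sub, hsc, Matrix.sub_mul, Matrix.smul_mul, neg_smul, sub_eq_add_neg]
    rfl
  have h1 : ∀ z : D, (R.f (z * star z) * R.A).PosSemidef := by
    intro z
    have := RP.sq_psd hA (star z)
    rwa [star_star] at this
  have h2 : ∀ z : D, z ≠ 0 → (R.f (z * star z) * R.A).PosDef := by
    intro z hz
    have := RP.sq_pos hA (star_ne_zero.mpr hz)
    rwa [star_star] at this
  have hp : 0 < -(R.s b).re := by linarith
  rw [e]
  rcases hxy with hx | hy
  · exact (h2 x hx).add_posSemidef ((h1 y).smul hp.le)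
  · exact Matrix.PosDef.posSemidef_add (h1 x) ((h2 y hy).smul hp)

/-- Every line is moved to a line defined over the centre. -/
theorem exists_T [NumberField K] (hK : ∃ t : K, star t ≠ t) {b : K} (hb : star b = b)
    (hbn : ∀ x : K, x * star x ≠ b)
    (hdef : ∀ w : E →+* ℂ, (∀ x, w (S.s x) = star (w x)) →
      (w (algebraMap K E b)).re < 0 ∧
        ((∀ i, 0 < (w (S.G i)).re) ∨ ∀ i, (w (S.G i)).re < 0))
    (z₁ z₂ : S.D) (hz : z₁ ≠ 0 ∨ z₂ ≠ 0) :
    ∃ (m : Matrix (Fin 2) (Fin 2) S.D) (δ : S.D) (κ₁ κ₂ : K), IsSU2 S.f b m ∧ δ ≠ 0 ∧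
      κ₁ * star κ₁ - b * (κ₂ * star κ₂) ≠ 0 ∧ rv (z₁, z₂) m = (κ₁ • δ, κ₂ • δ) := by
  have hb0 : b ≠ 0 := fun h0 => hbn 0 (by rw [zero_mul, h0])
  obtain ⟨g, hg⟩ : ∃ g : S.D, g = z₁ * star z₁ - b • (z₂ * star z₂) := ⟨_, rfl⟩
  have hg0 : g ≠ 0 := by
    intro h
    have h1 := aniso_b S hb hbn z₁ z₂ (by rw [← hg, h])
    rcases hz with hz | hz
    · exact hz h1.1
    · exact hz h1.2
  have hgs : star g = g := by
    rw [hg, star_sub, star_smul, hb, star_mul, star_mul, star_star, star_star]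
  -- the congruences at the real places
  have hcong : ∀ (w : E →+* ℂ) (hw : ∀ x, w (S.s x) = star (w x)),
      ∃ Q : Matrix (Fin 3) (Fin 3) ℂ, IsUnit Q ∧
        Q * (((1 : ℝ) : ℂ) • ((S.rd w hw).f 1 * (S.rd w hw).A)) * Qᴴ =
          (S.rd w hw).f g * (S.rd w hw).A := by
    intro w hw
    obtain ⟨h1, h2⟩ := hdef w hw
    have hone : (1 : S.D) = 1 * star 1 - b • (0 * star 0) := by
      rw [star_one, mul_one, zero_mul, smul_zero, sub_zero]
    have hreal : ∀ i, w (S.G i) = ((w (S.G i)).re : ℂ) := by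
      intro i
      have h1 := hw (S.G i)
      rw [S.sG] at h1
      exact (Complex.conj_eq_iff_re.mp h1.symm).symm
    have hc : (S.rd w hw).CongAt 1 g := by
      rcases h2 with h2 | h2
      · have hA : (S.rd w hw).A.PosDef := by
          change (Matrix.diagonal fun i => (w (S.G i))⁻¹).PosDef
          refine Matrix.PosDef.diagonal fun i => ?_
          rw [hreal i, ← Complex.ofReal_inv]
          exact_mod_cast inv_pos.mpr (h2 i)
        refine RP.congAt_of_pos ?_ ?_
        · rw [hone]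
          exact pos_b hA hb h1 (Or.inl one_ne_zero)
        · rw [hg]
          exact pos_b hA hb h1 hz
      · have hA : (negR (S.rd w hw)).A.PosDef := by
          change (-Matrix.diagonal fun i => (w (S.G i))⁻¹).PosDef
          rw [Matrix.diagonal_neg]
          refine Matrix.PosDef.diagonal fun i => ?_
          rw [hreal i, ← Complex.ofReal_inv]
          have := inv_lt_zero.mpr (h2 i)
          have h3 : 0 < -((w (S.G i)).re)⁻¹ := by linarith
          exact_mod_cast h3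
        refine Three.congAt_of_neg ?_ ?_
        · rw [hone, ← Matrix.mul_neg]
          exact pos_b hA hb h1 (Or.inl one_ne_zero)
        · rw [hg, ← Matrix.mul_neg]
          exact pos_b hA hb h1 hz
    obtain ⟨Q, hQ, h⟩ := hc
    exact ⟨Q, hQ, by rw [Complex.ofReal_one, one_smul]; exact h⟩
  obtain ⟨μ, δ, hμ, -, hδ, hgμ, hpos⟩ := S.similar hK hgs (star_one _) hg0 one_ne_zero
    (fun w hw => by
      obtain ⟨Q, hQ, h⟩ := hcong w hw
      exact ⟨1, Q, one_ne_zero, hQ, h⟩)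
  have hμ0 : μ ≠ 0 := by
    rintro rfl
    exact hg0 (by rw [hgμ, zero_smul])
  obtain ⟨κ₁, κ₂, hκ⟩ := exists_kappa hK hb hb0 hμ hμ0 (by
    intro r hr _
    obtain ⟨w, hwr⟩ := S.exists_ext r
    have hwr' : ∀ x, w (algebraMap K E x) = r x := fun x => DFunLike.congr_fun hwr x
    have hw : ∀ x, w (S.s x) = star (w x) :=
      Dat.s_conj w fun x => by rw [hwr', hwr', hr]
    obtain ⟨Q, hQ, h⟩ := hcong w hw
    obtain ⟨t, ht, h3⟩ := hpos w hw 1 Q hQ h
    rw [← hwr', h3, Complex.ofReal_one, one_mul, ← Complex.ofReal_pow, Complex.ofReal_re]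
    positivity)
  obtain ⟨m, δ', hm, hδ', h⟩ := exists_move S.f hK (by norm_num) S.finrank_D hb
    (aniso_b S hb hbn) hμ0 hκ (z₁ := z₁) (z₂ := z₂) hδ (by rw [← hg, hgμ, mul_one])
  exact ⟨m, δ', κ₁, κ₂, hm, hδ', by rw [hκ]; exact hμ0, h⟩

end dat

end Vale.Agent.P011.E6O
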